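import Crest.Agent.N337.S27.LY0E
import Crest.Agent.N337.LY.Newton

/-!
# Row 337, (N0): Gaussian domination in the determinant (green) measure

`N0` : `∑ ξ, Pw p ξ * ∏ loops (Tr M - 2 det M) ≤ det A * exp (tᵀ A⁻¹ K s)`, where `K = Kb ex ey p`
is the averaged space-time step and `A = 1 - K * diagonal b`.
-/

set_option autoImplicit false
set_option linter.unusedSectionVars false

namespace Crest.Agent.N337.LY0

open Finset Equiv Matrix Function Crest.Agent.N337.Rep Filter Topology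

variable {Λ : Type} [Fintype Λ] [DecidableEq Λ] {T : ℕ} [NeZero T] (ex ey : Fin T → Λ)

/-- the averaged space-time step (a stochastic matrix, entry `(target, source)`). -/
def Kb (p : Fin T → ℝ) : Matrix (Fin T × Λ) (Fin T × Λ) ℝ := Matrix.of fun a c =>
  if a.1 = c.1 + 1 then (if a.2 = c.2 then 1 else 0) -
    p c.1 * (Rep.ev (ex c.1) (ey c.1) a.2 * Rep.ev (ex c.1) (ey c.1) c.2) else 0

lemma Kb_apply (p : Fin T → ℝ) (r s : Fin T) (y x : Λ) : Kb ex ey p (r, y) (s, x) =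
    if r = s + 1 then (1 - p s) * (if y = x then 1 else 0) +
      p s * (if y = swap (ex s) (ey s) x then 1 else 0) else 0 := by
  have h := ite_sg (ex s) (ey s) true y x
  simp only [sg, if_true, one_mul] at h
  by_cases hr : r = s + 1
  · simp only [Kb, of_apply, hr, if_true, h]; ring
  · simp [Kb, hr]

lemma Kb_nonneg {p : Fin T → ℝ} (hp : ∀ s, 0 ≤ p s ∧ p s ≤ 1) (a c : Fin T × Λ) :
    0 ≤ Kb ex ey p a c := by
  obtain ⟨r, y⟩ := a
  obtain ⟨s, x⟩ := c
  have h1 := (hp s).1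
  have h2 := sub_nonneg.2 (hp s).2
  rw [Kb_apply]; split_ifs <;> positivity

lemma Kb_bit (ξ : Fin T → Bool) :
    Kb ex ey (fun s => if ξ s = true then 1 else 0) = PM (Sg ex ey ξ) := by
  ext ⟨r, y⟩ ⟨s, x⟩
  simp only [Kb, PM, of_apply, Sg_apply, Prod.mk.injEq, ite_and, ite_sg]

/-- the determinant is multi-affine in the coins. -/
theorem avg_det (p : Fin T → ℝ) (M : Matrix (Fin T × Λ) (Fin T × Λ) ℝ) :
    ∑ ξ, Pw p ξ * (1 - PM (Sg ex ey ξ) * M).det = (1 - Kb ex ey p * M).det := by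
  have h := avg_aff (fun x => (1 - Kb ex ey x * M).det) (fun s x c => ?_) p
  · simpa only [Kb_bit, Pw, wb] using h
  set a : Fin T × Λ → ℝ := fun v => if v.1 = s + 1 then Rep.ev (ex s) (ey s) v.2 else 0
  set a' : Fin T × Λ → ℝ := fun v => if v.1 = s then Rep.ev (ex s) (ey s) v.2 else 0
  have e : ∀ r : ℝ, 1 - Kb ex ey (update x s r) * M =
      1 - Kb ex ey (update x s 0) * M + r • vecMulVec a (a' ᵥ* M) := by
    intro r
    have : Kb ex ey (update x s r) = Kb ex ey (update x s 0) - r • vecMulVec a a' := by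
      ext ⟨r', y⟩ ⟨s', x'⟩
      simp only [Kb, of_apply, Matrix.sub_apply, Matrix.smul_apply, vecMulVec_apply, a, a',
        smul_eq_mul]
      by_cases hs : s' = s
      · subst hs; by_cases hr : r' = s' + 1 <;> simp [hr]
      · simp [hs]
    rw [this, Matrix.sub_mul, Matrix.smul_mul, vecMulVec_mul]; abel
  beta_reduce
  rw [e c, e 1, det_aff, one_smul]

theorem avg_green (p : Fin T → ℝ) (b : Fin T × Λ → ℝ) :
    ∑ ξ, Pw p ξ * ∏ c, (1 - pr (Sg ex ey ξ) b c) = (1 - Kb ex ey p * diagonal b).det := by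
  rw [← avg_det]
  refine sum_congr rfl fun ξ _ => ?_
  rw [← mat_eq, det_mat]
  simp only [pr_one fun _ _ => rfl]

variable {p : Fin T → ℝ} {b s t : Fin T × Λ → ℝ}

lemma det_mat_pos {S : Type} [Fintype S] [DecidableEq S] (π : Perm S) {b : S → ℝ}
    (hb : ∀ v, 0 ≤ b v ∧ b v < 1) : 0 < (mat π (fun _ => 1) b).det := by
  rw [det_mat]
  refine prod_pos fun c _ => ?_
  rw [pr_one fun _ _ => rfl, sub_pos, pr, ← mul_prod_erase _ _
    (show bp c ∈ univ.filter fun v => o π v = c from mem_filter.2 ⟨mem_univ _, o_bp c⟩)]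
  exact (mul_le_of_le_one_right (hb _).1
    (prod_le_one (fun v _ => (hb v).1) fun v _ => (hb v).2.le)).trans_lt (hb _).2

theorem N0_strict (hp : ∀ s, 0 ≤ p s ∧ p s ≤ 1) (hp2 : ∀ s, p s ≠ 1 / 2)
    (hb : ∀ v, 0 < b v ∧ b v < 1) (hs : ∀ v, 0 < s v) (ht : ∀ v, 0 < t v) :
    ∑ ξ, Pw p ξ * Ps (Sg ex ey ξ) s t b ≤ (1 - Kb ex ey p * diagonal b).det *
      Real.exp (1 - (1 - Kb ex ey p * diagonal b - vecMulVec (Kb ex ey p *ᵥ s) t).det /
        (1 - Kb ex ey p * diagonal b).det) := by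
  have hN := fun ξ => det_mat_pos (Sg ex ey ξ) fun v => ⟨(hb v).1.le, (hb v).2⟩
  set F : ℝ → ℝ := fun w => ∑ ξ, Pw p ξ * Ps (Sg ex ey ξ) (fun v => w * s v) t b with hF
  set D := (1 - Kb ex ey p * diagonal b).det with hD
  set D' := (1 - Kb ex ey p * diagonal b - vecMulVec (Kb ex ey p *ᵥ s) t).det with hD'
  have e0 : ∑ ξ, Pw p ξ * (mat (Sg ex ey ξ) (fun _ => 1) b).det = D := by
    simp only [mat_eq, avg_det, hD]
  have hF0 : F 0 = D := by simp only [hF, zero_mul, Ps_zero, e0]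
  have hD0 : 0 < D := by
    rw [← e0]
    obtain ⟨ξ, -, hξ⟩ := exists_ne_zero_of_sum_ne_zero ((sum_Pw p).trans_ne one_ne_zero)
    exact sum_pos' (fun ξ _ => mul_nonneg (Pw_nonneg hp ξ) (hN ξ).le)
      ⟨ξ, mem_univ _, mul_pos ((Pw_nonneg hp ξ).lt_of_ne hξ.symm) (hN ξ)⟩
  have hd : HasDerivAt F (D - D') 0 := by
    refine (HasDerivAt.fun_sum fun ξ _ =>
      (Ps_deriv (Sg ex ey ξ) s t b (hN ξ).ne').const_mul (Pw p ξ)).congr_deriv ?_
    simp only [mul_sub, sum_sub_distrib, e0]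
    congr 1
    have h := avg_det ex ey p (diagonal b + vecMulVec s t)
    simpa only [mat_eq, hD', Matrix.mul_add, mul_vecMulVec, sub_sub] using h
  set Q : Polynomial ℂ := ∑ ξ, Polynomial.C (Pw p ξ : ℂ) * Ps (Sg ex ey ξ)
    (fun v => Polynomial.X * Polynomial.C (s v : ℂ)) (fun v => Polynomial.C (t v : ℂ))
    fun v => Polynomial.C (b v : ℂ) with hQ
  have hQe : ∀ z : ℂ, Q.eval z = ∑ ξ, (Pw p ξ : ℂ) * Ps (Sg ex ey ξ) (fun v => z * s v)
      (fun v => (t v : ℂ)) fun v => (b v : ℂ) := by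
    intro z
    rw [← Polynomial.coe_evalRingHom, hQ, map_sum]
    simp only [map_mul, Ps_map, Polynomial.coe_evalRingHom, Polynomial.eval_C, Polynomial.eval_X]
  have hQr : ∀ w : ℝ, Q.eval (w : ℂ) = (F w : ℂ) := by
    intro w
    rw [hQe, hF, ← Complex.ofRealHom_eq_coe (∑ ξ, _), map_sum]
    simp only [map_mul, Ps_map, Complex.ofRealHom_eq_coe]
  have hQd : Q.derivative.eval 0 = ((D - D' : ℝ) : ℂ) := by
    have h1 := (Q.hasDerivAt ((0 : ℝ) : ℂ)).comp_ofReal
    simp only [hQr] at h1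
    exact h1.unique hd.ofReal_comp
  have h0 := hQr 0
  have h1 := hQr 1
  rw [Complex.ofReal_zero, hF0] at h0
  rw [Complex.ofReal_one] at h1
  have L := LY.L4 Q fun z hz => by
    by_cases hz0 : z = 0
    · rw [hz0, h0]; exact_mod_cast hD0.ne'
    · rw [hQe]
      exact ne_zero ex ey hp hp2 (fun v => ⟨(hb v).1, (hb v).2.le⟩) hs ht fun h =>
        hz ⟨h.1, h.2.lt_of_ne fun h' => hz0 (Complex.ext h' h.1)⟩
  rw [h0, h1, hQd, ← Complex.ofReal_div, Complex.ofReal_re, Complex.norm_real, Complex.norm_real,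
    Real.norm_of_nonneg hD0.le, sub_div, div_self hD0.ne'] at L
  simpa only [hF, one_mul] using (le_abs_self _).trans L

/-- **(N0)** Gaussian domination in the determinant measure. -/
theorem N0 (hp : ∀ s, 0 ≤ p s ∧ p s ≤ 1) (hb : ∀ v, 0 ≤ b v ∧ b v ≤ 1) (hs : ∀ v, 0 ≤ s v)
    (ht : ∀ v, 0 ≤ t v) (hA : (1 - Kb ex ey p * diagonal b).det ≠ 0) :
    ∑ ξ, Pw p ξ * Ps (Sg ex ey ξ) s t b ≤ (1 - Kb ex ey p * diagonal b).det *
      Real.exp (t ⬝ᵥ (1 - Kb ex ey p * diagonal b)⁻¹ *ᵥ (Kb ex ey p *ᵥ s)) := by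
  set pe : ℝ → Fin T → ℝ := fun e r => if p r = 1 / 2 then (1 - e) / 2 else p r with hpe
  set be : ℝ → Fin T × Λ → ℝ := fun e v => (1 - e) * b v + e / 2 with hbe
  have cp : ∀ r, Continuous fun e => pe e r := fun r => by
    simp only [hpe]; split_ifs <;> fun_prop
  have cb : ∀ v, Continuous fun e => be e v := fun v => by simp only [hbe]; fun_prop
  have cK : Continuous fun e => Kb ex ey (pe e) := continuous_matrix fun a c => by
    have := cp c.1
    simp only [Kb, of_apply]; split_ifs <;> fun_prop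
  have cA : Continuous fun e => 1 - Kb ex ey (pe e) * diagonal (be e) :=
    continuous_const.sub (cK.matrix_mul (continuous_pi cb).matrix_diagonal)
  have cA' : Continuous fun e => 1 - Kb ex ey (pe e) * diagonal (be e) -
      vecMulVec (Kb ex ey (pe e) *ᵥ fun v => s v + e) fun v => t v + e :=
    cA.sub ((cK.matrix_mulVec (by fun_prop)).matrix_vecMulVec (by fun_prop))
  have cL : Continuous fun e => ∑ ξ, Pw (pe e) ξ *
      Ps (Sg ex ey ξ) (fun v => s v + e) (fun v => t v + e) (be e) := by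
    refine continuous_finsetSum _ fun ξ _ => Continuous.mul ?_ ?_
    · refine continuous_finsetProd _ fun r _ => ?_
      have := cp r
      unfold wb; split_ifs <;> fun_prop
    · refine continuous_finsetProd _ fun c _ => (Tr_cont _ (fun v => ?_) c).sub
        (continuous_const.mul (continuous_finsetProd _ fun v _ => cb v))
      have := cb v
      refine continuous_matrix fun i j => ?_
      fin_cases i <;> fin_cases j <;> simp [mv] <;> fun_prop
  have p0 : pe 0 = p := by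
    funext r; simp only [hpe]; split_ifs with h
    · rw [h]; norm_num
    · rfl
  have b0 : be 0 = b := by funext v; simp [hbe]
  have cR : ContinuousAt (fun e => (1 - Kb ex ey (pe e) * diagonal (be e)).det *
      Real.exp (1 - (1 - Kb ex ey (pe e) * diagonal (be e) -
        vecMulVec (Kb ex ey (pe e) *ᵥ fun v => s v + e) fun v => t v + e).det /
        (1 - Kb ex ey (pe e) * diagonal (be e)).det)) 0 :=
    cA.matrix_det.continuousAt.mul (continuousAt_const.sub (cA'.matrix_det.continuousAt.div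
      cA.matrix_det.continuousAt (by rwa [p0, b0]))).rexp
  have key := le_of_tendsto_of_tendsto (b := 𝓝[>] (0 : ℝ))
    (cL.continuousAt.tendsto.mono_left nhdsWithin_le_nhds)
    (cR.tendsto.mono_left nhdsWithin_le_nhds) (by
      filter_upwards [Ioo_mem_nhdsGT (zero_lt_one' ℝ)] with e he
      refine N0_strict ex ey (fun r => ?_) (fun r => ?_) (fun v => ?_)
        (fun v => add_pos_of_nonneg_of_pos (hs v) he.1)
        fun v => add_pos_of_nonneg_of_pos (ht v) he.1
      · simp only [hpe]; split_ifs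
        · constructor <;> linarith [he.1, he.2]
        · exact hp r
      · simp only [hpe]; split_ifs with h
        · intro h'; linarith [he.1]
        · exact h
      · simp only [hbe]
        constructor <;> nlinarith [he.1, he.2, (hb v).1, (hb v).2])
  simp only [p0, b0, add_zero] at key
  rwa [det_rank_one hA, mul_div_cancel_left₀ _ hA, sub_sub_cancel] at key

/-- `k` sources: `e_k ≤ (e e₁ / k)^k`. -/
theorem N0_pow (hp : ∀ s, 0 ≤ p s ∧ p s ≤ 1) (hb : ∀ v, 0 ≤ b v ∧ b v ≤ 1) (hs : ∀ v, 0 ≤ s v)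
    (ht : ∀ v, 0 ≤ t v) (hA : 0 < (1 - Kb ex ey p * diagonal b).det) {k : ℕ} (hk : 1 ≤ k)
    {q : ℝ} (hq0 : 0 ≤ q)
    (hq : t ⬝ᵥ (1 - Kb ex ey p * diagonal b)⁻¹ *ᵥ (Kb ex ey p *ᵥ s) ≤ q)
    (W : (Fin T → Bool) → ℝ)
    (hW : ∀ ξ, ∀ α : ℝ, 0 < α → α ^ k * W ξ ≤ Ps (Sg ex ey ξ) (fun v => α * s v) t b) :
    ∑ ξ, Pw p ξ * W ξ ≤ (1 - Kb ex ey p * diagonal b).det * (Real.exp 1 * q / k) ^ k := by
  refine LY.opt_lemma hk hA.le hq0 fun α hα => ?_
  have h := N0 ex ey hp hb (s := fun v => α * s v) (fun v => mul_nonneg hα.le (hs v)) ht hA.ne'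
  rw [show (fun v => α * s v) = α • s from rfl, mulVec_smul, mulVec_smul, dotProduct_smul,
    smul_eq_mul] at h
  rw [mul_sum]
  refine le_trans (sum_le_sum fun ξ _ => ?_) (h.trans (mul_le_mul_of_nonneg_left
    (Real.exp_le_exp.2 (mul_le_mul_of_nonneg_left hq hα.le)) hA.le))
  rw [mul_left_comm]
  exact mul_le_mul_of_nonneg_left (hW ξ α hα) (Pw_nonneg hp ξ)

end Crest.Agent.N337.LY0
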