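import Crest.Agent.N337.Rep.Det

/-!
# Row 337, (N0) part A: monodromies of `2 × 2` insertions along the loops of a permutation
-/

set_option autoImplicit false
set_option linter.unusedSectionVars false

namespace Crest.Agent.N337.LY0

open Finset Equiv Matrix Crest.Agent.N337.Rep

variable {S : Type} [Fintype S] [DecidableEq S] {R : Type} [CommRing R]

abbrev M2 (R : Type) : Type := Matrix (Fin 2) (Fin 2) R

/-- inclusion of the colour space at one point. -/
def J (R : Type) [CommRing R] (x : S) : Matrix (S × Fin 2) (Fin 2) R :=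
  Matrix.of fun a i => if a = (x, i) then 1 else 0

lemma JT_J (y x : S) : (J R y)ᵀ * J R x = if y = x then 1 else 0 := by
  ext i j
  simp only [mul_apply, transpose_apply, J, of_apply, ite_mul, one_mul, zero_mul, sum_ite_eq',
    mem_univ, if_true, Prod.mk.injEq]
  by_cases h : y = x <;> simp [h, one_apply]

/-- one block. -/
def E (x y : S) (h : M2 R) : Matrix (S × Fin 2) (S × Fin 2) R := J R x * h * (J R y)ᵀ

lemma E_apply (x y : S) (h : M2 R) (a b : S × Fin 2) :
    E x y h a b = if a.1 = x ∧ b.1 = y then h a.2 b.2 else 0 := by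
  obtain ⟨a, i⟩ := a
  obtain ⟨b, j⟩ := b
  simp only [E, mul_apply, transpose_apply, J, of_apply, Prod.mk.injEq]
  by_cases h1 : a = x <;> by_cases h2 : b = y <;> simp [h1, h2]

lemma E_mul (x y y' z : S) (h k : M2 R) :
    E x y h * E y' z k = if y = y' then E x z (h * k) else 0 := by
  have : E x y h * E y' z k = J R x * h * ((J R y)ᵀ * J R y') * k * (J R z)ᵀ := by
    simp only [E, Matrix.mul_assoc]
  rw [this, JT_J]
  split_ifs
  · simp only [E, Matrix.mul_one, Matrix.mul_assoc]
  · simp

lemma det_one_sub_E (x : S) (h : M2 R) : (1 - E x x h).det = (1 - h).det := by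
  rw [E, det_one_sub_mul_comm, ← Matrix.mul_assoc, JT_J]; simp

lemma det_one_add_E {x y : S} (hxy : y ≠ x) (h : M2 R) : (1 + E x y h).det = 1 := by
  rw [E, det_one_add_mul_comm, ← Matrix.mul_assoc, JT_J]; simp [hxy]

/-- ordered product. -/
def Pk (g : ℕ → M2 R) : ℕ → M2 R
  | 0 => 1
  | j + 1 => g j * Pk g j

lemma Pk_zero (g : ℕ → M2 R) : Pk g 0 = 1 := rfl
lemma Pk_succ (g : ℕ → M2 R) (j : ℕ) : Pk g (j + 1) = g j * Pk g j := rfl

lemma Pk_congr {g g' : ℕ → M2 R} {k : ℕ} (h : ∀ i < k, g i = g' i) : Pk g k = Pk g' k := by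
  induction k with
  | zero => rfl
  | succ k ih => rw [Pk_succ, Pk_succ, h k (by omega), ih fun i hi => h i (by omega)]

lemma det_Pk (g : ℕ → M2 R) (k : ℕ) : (Pk g k).det = ∏ i ∈ range k, (g i).det := by
  induction k with
  | zero => simp [Pk_zero]
  | succ k ih => rw [Pk_succ, det_mul, ih, prod_range_succ, mul_comm]

lemma Pk_smul (c : ℕ → R) (g : ℕ → M2 R) (k : ℕ) :
    Pk (fun i => c i • g i) k = (∏ i ∈ range k, c i) • Pk g k := by
  induction k with
  | zero => simp [Pk_zero]
  | succ k ih =>
    rw [Pk_succ, Pk_succ, ih, prod_range_succ, Matrix.smul_mul, Matrix.mul_smul, smul_smul,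
      mul_comm]

lemma Pk_conj {D D' : M2 R} (h1 : D' * D = 1) (h2 : D * D' = 1) (g : ℕ → M2 R) (k : ℕ) :
    Pk (fun i => D * g i * D') k = D * Pk g k * D' := by
  induction k with
  | zero => simp [Pk_zero, h2]
  | succ k ih =>
    rw [Pk_succ, Pk_succ, ih]
    calc _ = D * g k * (D' * D) * Pk g k * D' := by simp only [Matrix.mul_assoc]
      _ = _ := by rw [h1]; simp only [Matrix.mul_one, Matrix.mul_assoc]

lemma Pk_map {R' : Type} [CommRing R'] (f : R →+* R') (g : ℕ → M2 R) (k : ℕ) :
    (Pk g k).map f = Pk (fun i => (g i).map f) k := by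
  induction k with
  | zero => simp [Pk_zero]
  | succ k ih => rw [Pk_succ, Pk_succ, Matrix.map_mul, ih]

lemma det_chain (v : ℕ → S) (g : ℕ → M2 R) (k : ℕ) (hv : ∀ i ≤ k, ∀ j ≤ k, v i = v j → i = j)
    (h : M2 R) : (1 - ∑ i ∈ range k, E (v (i + 1)) (v i) (g i) - E (v 0) (v k) h).det =
      (1 - h * Pk g k).det := by
  induction k generalizing h with
  | zero => simp [Pk_zero, det_one_sub_E]
  | succ k ih =>
    have hne : ∀ i ≤ k, v i ≠ v (k + 1) := fun i hi h' => by
      have := hv i (by omega) (k + 1) le_rfl h'; omega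
    set C := ∑ i ∈ range k, E (v (i + 1)) (v i) (g i) with hC
    set X := E (v 0) (v (k + 1)) h with hX
    set Y := E (v (k + 1)) (v k) (g k) with hY
    have h1 : X * C = 0 := by
      rw [hC, Matrix.mul_sum]
      exact sum_eq_zero fun i hi => by
        rw [hX, E_mul, if_neg (hne (i + 1) (by simpa using hi)).symm]
    have h2 : X * X = 0 := by rw [hX, E_mul, if_neg (hne 0 (by omega)).symm]
    have h3 : C * Y = 0 := by
      rw [hC, Matrix.sum_mul]
      exact sum_eq_zero fun i hi => by
        rw [hY, E_mul, if_neg (hne i (by simp at hi; omega))]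
    have h4 : Y * Y = 0 := by rw [hY, E_mul, if_neg (hne k le_rfl)]
    have h5 : X * Y = E (v 0) (v k) (h * g k) := by rw [hX, hY, E_mul, if_pos rfl]
    have key : (1 + X) * (1 - (C + Y) - X) * (1 + Y) = 1 - C - X * Y := by
      have e : (1 + X) * (1 - (C + Y) - X) * (1 + Y) = 1 - C - X * Y - C * Y - Y * Y
          - (X * C + X * X) * (1 + Y) - X * (Y * Y) := by noncomm_ring
      rw [e, h1, h2, h3, h4]; simp
    have hd := congrArg det key
    rw [det_mul, det_mul, hX, hY, det_one_add_E (hne 0 (by omega)).symm,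
      det_one_add_E (hne k le_rfl), ← hX, ← hY, h5,
      ih (fun i hi j hj => hv i (by omega) j (by omega)), one_mul, mul_one] at hd
    rw [sum_range_succ, ← hC, ← hY, hd, Pk_succ, Matrix.mul_assoc]

/-- the points of an orbit. -/
noncomputable abbrev ob (π : Perm S) (c : Orb π) : Finset S := univ.filter fun v => o π v = c

/-- the length of the loop through a point. -/
noncomputable def per (π : Perm S) (x : S) : ℕ := Function.minimalPeriod π x

variable {π : Perm S}

lemma per_pos (π : Perm S) (x : S) : 0 < per π x :=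
  Function.minimalPeriod_pos_of_mem_periodicPts (π.injective.mem_periodicPts x)

lemma it_per (π : Perm S) (x : S) : π^[per π x] x = x := Function.iterate_minimalPeriod

lemma it_inj {x : S} {i j : ℕ} (hi : i < per π x) (hj : j < per π x) (h : π^[i] x = π^[j] x) :
    i = j := Function.iterate_injOn_Iio_minimalPeriod hi hj h

lemma o_it (π : Perm S) (k : ℕ) (x : S) : o π (π^[k] x) = o π x := by
  rw [← Perm.coe_pow]; exact o_pow π k x

lemma ob_eq (π : Perm S) (x : S) :
    ob π (o π x) = (range (per π x)).image fun i => π^[i] x := by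
  ext v
  simp only [mem_filter, mem_univ, true_and, mem_image, mem_range]
  constructor
  · intro h
    obtain ⟨k, -, hk⟩ := (o_eq.1 h.symm).exists_pow_eq'
    refine ⟨k % per π x, Nat.mod_lt _ (per_pos π x), ?_⟩
    rw [per, Function.iterate_mod_minimalPeriod_eq, ← Perm.coe_pow, hk]
  · rintro ⟨i, -, rfl⟩; exact o_it π i x

lemma prod_ob {M : Type} [CommMonoid M] (π : Perm S) (x : S) (f : S → M) :
    ∏ v ∈ ob π (o π x), f v = ∏ i ∈ range (per π x), f (π^[i] x) := by
  rw [ob_eq, prod_image fun i hi j hj h => it_inj (by simpa using hi) (by simpa using hj) h]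

lemma sum_ob {M : Type} [AddCommMonoid M] (π : Perm S) (x : S) (f : S → M) :
    ∑ v ∈ ob π (o π x), f v = ∑ i ∈ range (per π x), f (π^[i] x) := by
  rw [ob_eq, sum_image fun i hi j hj h => it_inj (by simpa using hi) (by simpa using hj) h]

/-- the monodromy based at a point. -/
noncomputable def Pc (π : Perm S) (g : S → M2 R) (x : S) : M2 R :=
  Pk (fun i => g (π^[i] x)) (per π x)

/-- the transfer matrix of one loop. -/
noncomputable def bm (π : Perm S) (g : S → M2 R) (c : Orb π) :
    Matrix (S × Fin 2) (S × Fin 2) R := ∑ v ∈ ob π c, E (π v) v (g v)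

lemma det_two (M : M2 R) : (1 - M).det = 1 - M.trace + M.det := by
  simp only [det_fin_two, trace_fin_two, Matrix.sub_apply, one_apply_eq, ne_eq, zero_ne_one,
    not_false_eq_true, one_apply_ne, one_ne_zero]
  ring

lemma det_Pc (π : Perm S) (g : S → M2 R) (x : S) :
    (Pc π g x).det = ∏ v ∈ ob π (o π x), (g v).det := by
  rw [Pc, det_Pk, prod_ob]

lemma det_bm (π : Perm S) (g : S → M2 R) (x : S) :
    (1 - bm π g (o π x)).det = 1 - (Pc π g x).trace + ∏ v ∈ ob π (o π x), (g v).det := by
  rw [← det_Pc, ← det_two, bm, sum_ob, Pc]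
  obtain ⟨k, hk⟩ : ∃ k, per π x = k + 1 := ⟨_, (Nat.succ_pred_eq_of_pos (per_pos π x)).symm⟩
  have h := det_chain (fun i => π^[i] x) (fun i => g (π^[i] x)) k
    (fun i hi j hj h => it_inj (by omega) (by omega) h) (g (π^[k] x))
  have h0 : π (π^[k] x) = x := by
    have := it_per π x
    rwa [hk, Function.iterate_succ_apply'] at this
  rw [hk, Pk_succ, ← h, sum_range_succ, h0, sub_sub]
  simp only [Function.iterate_succ_apply', Function.iterate_zero, id]

/-- a base point of an orbit. -/
noncomputable def bp (c : Orb π) : S := Quotient.out c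

lemma o_bp (c : Orb π) : o π (bp c) = c := Quotient.out_eq c

/-- the trace of the monodromy of a loop. -/
noncomputable def Tr (π : Perm S) (g : S → M2 R) (c : Orb π) : R := (Pc π g (bp c)).trace

lemma Tr_eq (π : Perm S) (g : S → M2 R) (x : S) : Tr π g (o π x) = (Pc π g x).trace := by
  have h1 := det_bm π g x
  have h2 := det_bm π g (bp (o π x))
  rw [o_bp, h1] at h2
  rw [Tr]; linear_combination h2

theorem det_loops (π : Perm S) (g : S → M2 R) :
    (1 - ∑ v, E (π v) v (g v)).det = ∏ c, (1 - Tr π g c + ∏ v ∈ ob π c, (g v).det) := by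
  have key : ∀ U : Finset (Orb π), (1 - ∑ c ∈ U, bm π g c).det =
      ∏ c ∈ U, (1 - Tr π g c + ∏ v ∈ ob π c, (g v).det) := by
    intro U
    induction U using Finset.induction_on with
    | empty => simp
    | insert c U hc ih =>
      have h0 : bm π g c * ∑ c ∈ U, bm π g c = 0 := by
        simp only [bm, Matrix.mul_sum, Matrix.sum_mul]
        refine sum_eq_zero fun c' hc' => sum_eq_zero fun v' hv' => sum_eq_zero fun v hv => ?_
        rw [E_mul, if_neg]
        rintro rfl
        have e1 := (mem_filter.1 hv).2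
        rw [o_apply, (mem_filter.1 hv').2] at e1
        exact hc (e1 ▸ hc')
      have h1 := det_bm π g (bp c)
      rw [o_bp] at h1
      rw [sum_insert hc, prod_insert hc, ← ih, Tr, ← h1, ← det_mul]
      congr 1
      rw [Matrix.sub_mul, Matrix.mul_sub, Matrix.mul_sub, h0]; simp [sub_sub, add_comm]
  rw [← key univ]
  congr 2
  exact (sum_fiberwise univ (o π) fun v => E (π v) v (g v)).symm

lemma Tr_smul (π : Perm S) (l : S → R) (g : S → M2 R) (c : Orb π) :
    Tr π (fun v => l v • g v) c = (∏ v ∈ ob π c, l v) * Tr π g c := by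
  have := prod_ob π (bp c) l
  rw [o_bp] at this
  rw [Tr, Tr, Pc, Pc, Pk_smul, this, trace_smul, smul_eq_mul]

lemma Tr_conj {D D' : M2 R} (h1 : D' * D = 1) (h2 : D * D' = 1) (π : Perm S) (g : S → M2 R)
    (c : Orb π) : Tr π (fun v => D * g v * D') c = Tr π g c := by
  rw [Tr, Tr, Pc, Pc, Pk_conj h1 h2, trace_mul_comm, ← Matrix.mul_assoc, h1, Matrix.one_mul]

lemma Tr_map {R' : Type} [CommRing R'] (f : R →+* R') (π : Perm S) (g : S → M2 R) (c : Orb π) :
    f (Tr π g c) = Tr π (fun v => (g v).map f) c := by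
  rw [Tr, Tr, Pc, Pc, ← Pk_map]; simp [trace]

lemma Tr_cont {X : Type} [TopologicalSpace X] (π : Perm S) {g : X → S → M2 ℝ}
    (hg : ∀ v, Continuous fun e => g e v) (c : Orb π) : Continuous fun e => Tr π (g e) c := by
  have : ∀ k, Continuous fun e => Pk (fun i => g e (π^[i] (bp c))) k := by
    intro k
    induction k with
    | zero => exact continuous_const
    | succ k ih => exact (hg _).matrix_mul ih
  exact (this _).matrix_trace

end Crest.Agent.N337.LY0
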