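import Crest.Agent.N337.S27.LY0A

/-!
# Row 337, (N0) part B: the ellipse lemma, iterated two-point averages, rank-one updates
-/

set_option autoImplicit false
set_option linter.unusedSectionVars false

namespace Crest.Agent.N337.LY0

open Finset Equiv Matrix Function

/-- a real-linear form on real `2 × 2` matrices with complex values. -/
def Lf (Γ : M2 ℂ) (h : M2 ℝ) : ℂ :=
  Γ 0 0 * h 0 0 + Γ 0 1 * h 0 1 + Γ 1 0 * h 1 0 + Γ 1 1 * h 1 1

lemma Lf_comb (Γ : M2 ℂ) (a b : ℝ) (h k : M2 ℝ) :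
    Lf Γ (a • h + b • k) = a * Lf Γ h + b * Lf Γ k := by
  simp only [Lf, Matrix.add_apply, Matrix.smul_apply, smul_eq_mul]; push_cast; ring

lemma Lf_comb' (Γ Γ' : M2 ℂ) (a b : ℂ) (h : M2 ℝ) :
    Lf (a • Γ + b • Γ') h = a * Lf Γ h + b * Lf Γ' h := by
  simp only [Lf, Matrix.add_apply, Matrix.smul_apply, smul_eq_mul]; ring

lemma Lf_neg (Γ : M2 ℂ) (h : M2 ℝ) : Lf Γ (-h) = -Lf Γ h := by
  simp only [Lf, Matrix.neg_apply]; push_cast; ring

lemma det_neg2 (h : M2 ℝ) : (-h).det = h.det := by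
  simp only [det_fin_two, Matrix.neg_apply]; ring

lemma ker_or_onto (A B z : ℂ) : (∃ x y : ℝ, x * A + y * B = z) ∨
    ∃ x y : ℝ, 0 < x ^ 2 + y ^ 2 ∧ x * A + y * B = 0 := by
  by_cases h : A.re * B.im - A.im * B.re = 0
  · right
    by_cases h1 : 0 < B.re ^ 2 + (-A.re) ^ 2
    · refine ⟨B.re, -A.re, h1, Complex.ext ?_ ?_⟩ <;> simp <;> linarith
    by_cases h2 : 0 < B.im ^ 2 + (-A.im) ^ 2
    · have e1 : B.re = 0 := by nlinarith [sq_nonneg B.re, sq_nonneg A.re]
      have e2 : A.re = 0 := by nlinarith [sq_nonneg B.re, sq_nonneg A.re]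
      refine ⟨B.im, -A.im, h2, Complex.ext ?_ ?_⟩ <;> simp [e1, e2]
      ring
    · have e2 : A.re = 0 := by nlinarith [sq_nonneg B.re, sq_nonneg A.re]
      have e3 : A.im = 0 := by nlinarith [sq_nonneg B.im, sq_nonneg A.im]
      refine ⟨1, 0, by norm_num, Complex.ext ?_ ?_⟩ <;> simp [e2, e3]
  · left
    refine ⟨(z.re * B.im - z.im * B.re) / (A.re * B.im - A.im * B.re),
      (A.re * z.im - A.im * z.re) / (A.re * B.im - A.im * B.re), Complex.ext ?_ ?_⟩
    · simp only [Complex.add_re, Complex.re_ofReal_mul, div_mul_eq_mul_div, ← add_div]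
      rw [div_eq_iff h]; ring
    · simp only [Complex.add_im, Complex.im_ofReal_mul, div_mul_eq_mul_div, ← add_div]
      rw [div_eq_iff h]; ring

/-- the ellipse lemma. -/
theorem ellipse {α : ℂ} {Γ : M2 ℂ} (H : ∀ h : M2 ℝ, h.det = 1 → α + Lf Γ h ≠ 0) {d : ℝ}
    (hd0 : d ≠ 0) (hd : |d| ≤ 1) {m : M2 ℝ} (hm : m.det = 1) : d * α + Lf Γ m ≠ 0 := by
  intro h0
  set m0 : M2 ℝ := d⁻¹ • m with hm0
  have hd' : (d : ℂ) ≠ 0 := by exact_mod_cast hd0
  have e0 : α + Lf Γ m0 = 0 := by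
    have := Lf_comb Γ d⁻¹ 0 m m
    simp only [zero_smul, add_zero, Complex.ofReal_zero, zero_mul, Complex.ofReal_inv] at this
    rw [hm0, this]; field_simp; linear_combination h0
  have e1 : 1 ≤ m0.det := by
    rw [hm0, det_smul, hm, mul_one, Fintype.card_fin, inv_pow]
    refine (one_le_inv₀ (by positivity)).2 ?_
    rw [← sq_abs]; exact pow_le_one₀ (abs_nonneg _) hd
  obtain ⟨n, hn, hn1⟩ : ∃ n : M2 ℝ, α + Lf Γ n = 0 ∧ n.det ≤ 1 := by
    have hL : ∀ x y : ℝ, Lf Γ !![x, y; y, -x] = x * (Γ 0 0 - Γ 1 1) + y * (Γ 0 1 + Γ 1 0) := by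
      intro x y; simp [Lf]; ring
    rcases ker_or_onto (Γ 0 0 - Γ 1 1) (Γ 0 1 + Γ 1 0) (-α) with ⟨x, y, h⟩ | ⟨x, y, hq, h⟩
    · refine ⟨!![x, y; y, -x], by rw [hL, h]; ring, ?_⟩
      rw [det_fin_two_of]; nlinarith [sq_nonneg x, sq_nonneg y]
    · set c := m0 1 1 * x - m0 0 0 * x - m0 0 1 * y - m0 1 0 * y with hc
      have hdet : ∀ r : ℝ, ((1 : ℝ) • m0 + r • !![x, y; y, -x]).det =
          m0.det + r * c - r ^ 2 * (x ^ 2 + y ^ 2) := by
        intro r; simp [det_fin_two, hc]; ring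
      set ρ := m0.det / (x ^ 2 + y ^ 2) + 1 with hρ
      have hρ1 : 1 ≤ ρ := le_add_of_nonneg_left (by positivity)
      have hρ2 : m0.det ≤ ρ ^ 2 * (x ^ 2 + y ^ 2) := by
        have : ρ * (x ^ 2 + y ^ 2) = m0.det + (x ^ 2 + y ^ 2) := by rw [hρ]; field_simp
        nlinarith [mul_le_mul_of_nonneg_right hρ1 (show 0 ≤ ρ * (x ^ 2 + y ^ 2) by positivity)]
      obtain ⟨r, hr1, hr2⟩ : ∃ r : ℝ, r ^ 2 = ρ ^ 2 ∧ r * c ≤ 0 := by
        rcases le_total 0 c with h' | h'
        · exact ⟨-ρ, by ring, by nlinarith⟩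
        · exact ⟨ρ, rfl, by nlinarith⟩
      refine ⟨(1 : ℝ) • m0 + r • !![x, y; y, -x], ?_, by rw [hdet, hr1]; linarith⟩
      rw [Lf_comb, hL, h]; simpa using e0
  have hc : Continuous fun t : ℝ => ((1 - t) • n + t • m0).det := by fun_prop
  obtain ⟨t, -, ht⟩ := intermediate_value_Icc zero_le_one hc.continuousOn
    (show (1 : ℝ) ∈ _ from ⟨by simpa using hn1, by simpa using e1⟩)
  refine H _ ht ?_
  rw [Lf_comb]; push_cast
  linear_combination (1 - (t : ℂ)) * hn + t * e0

section iter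
variable {ι X K : Type} [Fintype ι] [DecidableEq ι] [CommRing K]

/-- a property that survives every two-point average survives the full average. -/
theorem bool_ind (P : ((ι → X) → K) → Prop) (w : ι → Bool → K) (u : ι → Bool → X → X)
    (hs : ∀ i Φ, P Φ → P fun h => w i false * Φ (update h i (u i false (h i))) +
      w i true * Φ (update h i (u i true (h i)))) {Φ : (ι → X) → K} (h0 : P Φ) :
    P fun h => ∑ ε : ι → Bool, (∏ i, w i (ε i)) * Φ fun i => u i (ε i) (h i) := by
  have key : ∀ U : Finset ι, P fun h => ∑ A ∈ U.powerset, (∏ i ∈ U, w i (decide (i ∈ A))) *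
      Φ fun i => if i ∈ U then u i (decide (i ∈ A)) (h i) else h i := by
    intro U
    induction U using Finset.induction_on with
    | empty => simpa using h0
    | insert j U hj ih =>
      convert hs j _ ih using 2 with h
      rw [sum_powerset_insert hj, mul_sum, mul_sum]
      congr 1
      · refine sum_congr rfl fun A hA => ?_
        have hA' : j ∉ A := fun h => hj (mem_powerset.1 hA h)
        rw [prod_insert hj, mul_assoc]
        simp only [hA', decide_false]
        congr 3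
        funext i
        by_cases hi : i = j
        · subst hi; simp [hj, hA']
        · simp [hi]
      · refine sum_congr rfl fun A hA => ?_
        rw [prod_insert hj, mul_assoc]
        simp only [mem_insert_self, decide_true]
        congr 2
        · refine prod_congr rfl fun i hi => ?_
          have : i ≠ j := fun h => hj (h ▸ hi)
          simp [this]
        · congr 1
          funext i
          by_cases hi : i = j
          · subst hi; simp [hj]
          · simp [hi]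
  convert key univ using 2 with h
  symm
  refine sum_bij' (fun A _ i => decide (i ∈ A)) (fun ε _ => univ.filter fun i => ε i = true)
    (fun _ _ => mem_univ _) (fun _ _ => by simp) (fun A _ => by ext i; simp)
    (fun ε _ => by funext i; simp) fun A _ => by simp

/-- nonvanishing on `SL₂(ℝ)^ι` and affine in every variable. -/
def Good (Φ : (ι → M2 ℝ) → ℂ) : Prop :=
  (∀ h, (∀ i, (h i).det = 1) → Φ h ≠ 0) ∧ ∀ i h, (∀ j, (h j).det = 1) →
    ∃ α Γ, ∀ k : M2 ℝ, k.det = 1 → Φ (update h i k) = α + Lf Γ k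

/-- signed weights of an insertion. -/
noncomputable def sw (d : ℝ) (b : Bool) : ℝ := if b = true then -((1 - d) / 2) else (1 + d) / 2

/-- sign of a bit. -/
def sn (b : Bool) : ℝ := if b = true then -1 else 1

lemma det_update {h : ι → M2 ℝ} (hh : ∀ j, (h j).det = 1) (i : ι) {k : M2 ℝ} (hk : k.det = 1)
    (j : ι) : (update h i k j).det = 1 := by
  by_cases hj : j = i
  · subst hj; simpa using hk
  · simpa [hj] using hh j

theorem Good.avg {Φ : (ι → M2 ℝ) → ℂ} (hΦ : Good Φ) {d : ι → ℝ} (hd0 : ∀ i, d i ≠ 0)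
    (hd : ∀ i, |d i| ≤ 1) {m : ι → M2 ℝ} (hm : ∀ i, (m i).det = 1) :
    ∑ ε : ι → Bool, (∏ i, (sw (d i) (ε i) : ℂ)) * Φ (fun i => sn (ε i) • m i) ≠ 0 := by
  refine (bool_ind Good (fun i b => (sw (d i) b : ℂ)) (fun _ b k => sn b • k) ?_ hΦ).1 m hm
  intro i Ψ hΨ
  have e1 : ∀ k : M2 ℝ, sn false • k = k := fun k => by simp [sn]
  have e2 : ∀ k : M2 ℝ, sn true • k = -k := fun k => by simp [sn]
  simp only [e1, e2]
  have hself : ∀ h : ι → M2 ℝ, (∀ j, (h j).det = 1) → ∃ α Γ,
      (∀ k : M2 ℝ, k.det = 1 → α + Lf Γ k ≠ 0) ∧ ∀ k : M2 ℝ, k.det = 1 →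
      (sw (d i) false : ℂ) * Ψ (update h i k) + sw (d i) true * Ψ (update h i (-k)) =
        d i * α + Lf Γ k := by
    intro h hh
    obtain ⟨α, Γ, H⟩ := hΨ.2 i h hh
    refine ⟨α, Γ, fun k hk => H k hk ▸ hΨ.1 _ (det_update hh i hk), fun k hk => ?_⟩
    rw [H k hk, H (-k) (by rw [det_neg2, hk]), Lf_neg]
    simp [sw]; ring
  refine ⟨fun h hh => ?_, fun j h hh => ?_⟩
  · obtain ⟨α, Γ, H1, H2⟩ := hself h hh
    beta_reduce
    rw [H2 _ (hh i)]
    exact ellipse H1 (hd0 i) (hd i) (hh i)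
  · by_cases hj : j = i
    · subst hj
      obtain ⟨α, Γ, -, H2⟩ := hself h hh
      exact ⟨d j * α, Γ, fun k hk => by simp only [update_self, update_idem, H2 k hk]⟩
    · obtain ⟨α, Γ, H⟩ := hΨ.2 j _ (det_update hh i (hh i))
      obtain ⟨α', Γ', H'⟩ := hΨ.2 j _ (det_update hh i ((det_neg2 _).trans (hh i)))
      refine ⟨sw (d i) false * α + sw (d i) true * α',
        (sw (d i) false : ℂ) • Γ + (sw (d i) true : ℂ) • Γ', fun k hk => ?_⟩
      simp only [update_of_ne (Ne.symm hj), update_comm hj, H k hk, H' k hk, Lf_comb']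
      ring

/-- averaging a multi-affine function over independent bits. -/
theorem avg_aff (f : (ι → ℝ) → ℝ)
    (hf : ∀ i x c, f (update x i c) = (1 - c) * f (update x i 0) + c * f (update x i 1))
    (p : ι → ℝ) : ∑ ξ : ι → Bool, (∏ i, if ξ i = true then p i else 1 - p i) *
      f (fun i => if ξ i = true then 1 else 0) = f p := by
  refine (bool_ind (fun g : (ι → ℝ) → ℝ => (∀ i x c, g (update x i c) =
      (1 - c) * g (update x i 0) + c * g (update x i 1)) ∧ g p = f p)
    (fun i b => if b = true then p i else 1 - p i) (fun _ b _ => if b = true then 1 else 0)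
    ?_ ⟨hf, rfl⟩).2
  rintro i g ⟨hg, hp⟩
  simp only [Bool.false_eq_true, if_false, if_true, ← hg i _ (p i)]
  refine ⟨fun j x c => ?_, by simpa using hp⟩
  by_cases hj : j = i
  · subst hj; simp only [update_idem]; ring
  · simp only [update_comm hj]; exact hg j _ c

end iter

section det
variable {n : Type} [Fintype n] [DecidableEq n]

lemma det_aff (N : Matrix n n ℝ) (a b : n → ℝ) (c : ℝ) :
    (N + c • vecMulVec a b).det = (1 - c) * N.det + c * (N + vecMulVec a b).det := by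
  set M : Matrix (n ⊕ Unit) (n ⊕ Unit) ℝ := fromBlocks N (Matrix.of fun i _ => -a i) 0 1
  have key : ∀ r : ℝ, (M.updateRow (Sum.inr ()) (Sum.elim (r • b) fun _ => 1)).det =
      (N + r • vecMulVec a b).det := by
    intro r
    have : M.updateRow (Sum.inr ()) (Sum.elim (r • b) fun _ => 1) =
        fromBlocks N (Matrix.of fun i _ => -a i) (Matrix.of fun _ j => r * b j) 1 := by
      ext (i | i) (j | j) <;> simp [M, updateRow_apply]
    rw [this, det_fromBlocks_one₂₂]
    congr 1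
    ext i j; simp [mul_apply, vecMulVec_apply]
  have h0 := key 0
  have h1 := key 1
  rw [zero_smul ℝ (vecMulVec a b), add_zero] at h0
  rw [one_smul ℝ (vecMulVec a b)] at h1
  rw [← key c, ← h0, ← h1, ← det_updateRow_smul, ← det_updateRow_smul, ← det_updateRow_add]
  congr 2
  funext j; rcases j with j | j <;> simp

lemma det_rank_one {N : Matrix n n ℝ} (hN : N.det ≠ 0) (a b : n → ℝ) :
    (N - vecMulVec a b).det = N.det * (1 - b ⬝ᵥ N⁻¹ *ᵥ a) := by
  have h1 : N - vecMulVec a b =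
      N * (1 + replicateCol Unit (-(N⁻¹ *ᵥ a)) * replicateRow Unit b) := by
    rw [← vecMulVec_eq, Matrix.mul_add, Matrix.mul_one, mul_vecMulVec, mulVec_neg,
      mulVec_mulVec, mul_nonsing_inv _ hN.isUnit, one_mulVec, neg_vecMulVec, sub_eq_add_neg]
  rw [h1, det_mul, det_one_add_replicateCol_mul_replicateRow, dotProduct_neg, sub_eq_add_neg]

/-- complexification. -/
def cx (h : M2 ℝ) : M2 ℂ := h.map Complex.ofReal

lemma aff_det {N : Matrix n n ℂ} (hN : N.det ≠ 0) (U : Matrix n (Fin 2) ℂ)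
    (V : Matrix (Fin 2) n ℂ) (h : M2 ℝ) : ∃ α Γ, ∀ k : M2 ℝ, k.det = 1 →
      (N - U * (cx k - cx h) * V).det = α + Lf Γ k := by
  set C := V * N⁻¹ * U with hC
  refine ⟨N.det * (1 + (cx h * C).trace + C.det * (1 + (cx h).det)),
    N.det • !![-C 0 0 - C.det * h 1 1, -C 1 0 + C.det * h 1 0;
      -C 0 1 + C.det * h 0 1, -C 1 1 - C.det * h 0 0], fun k hk => ?_⟩
  have h1 : N - U * (cx k - cx h) * V = N * (1 - N⁻¹ * U * ((cx k - cx h) * V)) := by
    rw [Matrix.mul_sub N, Matrix.mul_one, ← Matrix.mul_assoc N, ← Matrix.mul_assoc N,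
      mul_nonsing_inv _ hN.isUnit, Matrix.one_mul, Matrix.mul_assoc]
  have h2 : (cx k - cx h) * V * (N⁻¹ * U) = (cx k - cx h) * C := by
    simp only [hC, Matrix.mul_assoc]
  have hk' : (k 0 0 : ℂ) * k 1 1 - k 0 1 * k 1 0 = 1 := by
    rw [det_fin_two] at hk; exact_mod_cast hk
  rw [h1, det_mul, det_one_sub_mul_comm, h2, det_two, det_mul]
  generalize C.det = D
  simp [Lf, cx, det_fin_two, trace_fin_two, mul_apply]
  linear_combination N.det * D * hk'

end det

end Crest.Agent.N337.LY0
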