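import Crest.Agent.N337.S27.LY0B
import Crest.Agent.N337.Rep.Main

/-!
# Row 337, (N0) part C: the space-time determinant with `SL₂(ℝ)` insertions does not vanish
-/

set_option autoImplicit false
set_option linter.unusedSectionVars false

namespace Crest.Agent.N337.LY0

open Finset Equiv Matrix Function Crest.Agent.N337.Rep

/-- the invariant form. -/
def qf (a : Fin 2 → ℂ) : ℝ := (a 0).re * (a 1).im - (a 0).im * (a 1).re

/-- its polarisation. -/
def bq (a b : Fin 2 → ℂ) : ℝ :=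
  (a 0).re * (b 1).im - (a 0).im * (b 1).re + (b 0).re * (a 1).im - (b 0).im * (a 1).re

lemma qf_add (a b : Fin 2 → ℂ) (r : ℝ) :
    qf (a + (r : ℂ) • b) = qf a + r * bq a b + r ^ 2 * qf b := by
  simp [qf, bq]; ring

lemma qf_mul (h : M2 ℝ) (a : Fin 2 → ℂ) : qf (cx h *ᵥ a) = h.det * qf a := by
  simp [qf, cx, mulVec, dotProduct, det_fin_two]; ring

/-- sink, then source. -/
def Cm (σ τ : ℂ) : M2 ℂ := !![1, τ; σ, 1 + σ * τ]

lemma qf_Cm (σ τ : ℂ) (a : Fin 2 → ℂ) : qf (Cm σ τ *ᵥ a) =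
    qf a + (-τ.im) * Complex.normSq (a 1) + σ.im * Complex.normSq (a 0 + τ * a 1) := by
  simp [qf, Cm, mulVec, dotProduct, Complex.normSq_apply]; ring

lemma qf_Cm_le {σ τ : ℂ} (hσ : 0 < σ.im) (hτ : τ.im < 0) (a : Fin 2 → ℂ) :
    qf a ≤ qf (Cm σ τ *ᵥ a) ∧ (a ≠ 0 → qf a < qf (Cm σ τ *ᵥ a)) := by
  rw [qf_Cm]
  have h1 := mul_nonneg (neg_pos.2 hτ).le (Complex.normSq_nonneg (a 1))
  have h2 := mul_nonneg hσ.le (Complex.normSq_nonneg (a 0 + τ * a 1))
  refine ⟨by linarith, fun ha => ?_⟩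
  by_cases e1 : a 1 = 0
  · have e0 : a 0 + τ * a 1 ≠ 0 := fun h => ha (by
      rw [e1, mul_zero, add_zero] at h
      funext i; fin_cases i; exacts [h, e1])
    have := mul_pos hσ (Complex.normSq_pos.2 e0)
    linarith
  · have := mul_pos (neg_pos.2 hτ) (Complex.normSq_pos.2 e1)
    linarith

variable {Λ : Type} [Fintype Λ] [DecidableEq Λ] {T : ℕ} [NeZero T]

lemma ev_sq (x y : Λ) : ∑ w, Rep.ev x y w ^ 2 = 2 ∨ ∀ w, Rep.ev x y w = 0 := by
  by_cases h : x = y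
  · right; intro w; simp [Rep.ev, h]
  · left
    have : ∀ w, Rep.ev x y w ^ 2 = (if w = x then 1 else 0) + if w = y then 1 else 0 := by
      intro w; unfold Rep.ev
      by_cases h1 : w = x
      · subst h1; simp [h]
      · by_cases h2 : w = y
        · subst h2; simp [h1]
        · simp [h1, h2]
    simp only [this, sum_add_distrib, sum_ite_eq', mem_univ, if_true]; norm_num

lemma qf_O {e : Λ → ℝ} (he : ∑ w, e w ^ 2 = 2 ∨ ∀ w, e w = 0) {h : M2 ℝ} (hh : h.det = 1)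
    (ψ : Λ → Fin 2 → ℂ) :
    ∑ y, qf (ψ y + (e y : ℂ) • ((cx h - 1) *ᵥ ∑ x, ((e x / 2 : ℝ) : ℂ) • ψ x)) =
      ∑ y, qf (ψ y) := by
  rcases he with he | he
  · set w := ∑ x, ((e x / 2 : ℝ) : ℂ) • ψ x with hw
    set δ := (cx h - 1) *ᵥ w with hδ
    have h1 : ∑ y, e y * bq (ψ y) δ = 2 * bq w δ := by
      simp only [bq, hw, Finset.sum_apply, Pi.smul_apply, smul_eq_mul, Complex.re_sum,
        Complex.im_sum, Complex.re_ofReal_mul, Complex.im_ofReal_mul, sum_mul, mul_sum,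
        ← sum_sub_distrib, ← sum_add_distrib]
      exact sum_congr rfl fun y _ => by ring
    have h2 := qf_add w δ 1
    rw [Complex.ofReal_one, one_smul, show w + δ = cx h *ᵥ w by
      rw [hδ, sub_mulVec, one_mulVec, add_sub_cancel], qf_mul, hh] at h2
    simp only [qf_add, sum_add_distrib, h1, ← sum_mul, he]
    linarith
  · simp [he]

variable (ex ey : Fin T → Λ)

/-- the time step with an insertion on the antisymmetric edge vector. -/
noncomputable def Sh (h : Fin T → M2 ℝ) :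
    Matrix ((Fin T × Λ) × Fin 2) ((Fin T × Λ) × Fin 2) ℂ := Matrix.of fun a b =>
  if a.1.1 = b.1.1 + 1 then (if a.1.2 = b.1.2 then (1 : M2 ℂ) a.2 b.2 else 0) +
    (Rep.ev (ex b.1.1) (ey b.1.1) a.1.2 : ℂ) * ((Rep.ev (ex b.1.1) (ey b.1.1) b.1.2 / 2 : ℝ) : ℂ) *
      (cx (h b.1.1) - 1) a.2 b.2 else 0

/-- the vertex insertions. -/
def Gm {S : Type} [DecidableEq S] (g : S → M2 ℂ) : Matrix (S × Fin 2) (S × Fin 2) ℂ :=
  Matrix.of fun a b => if a.1 = b.1 then g a.1 a.2 b.2 else 0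

lemma Gm_mulVec {S : Type} [Fintype S] [DecidableEq S] (g : S → M2 ℂ) (φ : S × Fin 2 → ℂ)
    (v : S) : (fun i => (Gm g *ᵥ φ) (v, i)) = g v *ᵥ fun j => φ (v, j) := by
  funext i
  simp [Gm, mulVec, dotProduct, Fintype.sum_prod_type, ite_mul]

lemma Sh_mulVec (h : Fin T → M2 ℝ) (ψ : (Fin T × Λ) × Fin 2 → ℂ) (s : Fin T) (y : Λ) :
    (fun i => (Sh ex ey h *ᵥ ψ) ((s + 1, y), i)) = (fun i => ψ ((s, y), i)) +
      (Rep.ev (ex s) (ey s) y : ℂ) • ((cx (h s) - 1) *ᵥ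
        ∑ x, ((Rep.ev (ex s) (ey s) x / 2 : ℝ) : ℂ) • fun i => ψ ((s, x), i)) := by
  funext i
  simp only [Sh, mulVec, dotProduct, Fintype.sum_prod_type, of_apply, add_left_inj, ite_mul,
    zero_mul, Pi.add_apply, Pi.smul_apply, smul_eq_mul, Finset.sum_apply, sum_ite_irrel,
    sum_const_zero, sum_ite_eq, mem_univ, if_true, add_mul, sum_add_distrib, one_apply, one_mul,
    mul_sum]
  rw [sum_comm]
  congr 1
  exact sum_congr rfl fun j _ => sum_congr rfl fun x _ => by ring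

theorem base_ne {σ τ : Fin T × Λ → ℂ} (hσ : ∀ v, 0 < (σ v).im) (hτ : ∀ v, (τ v).im < 0)
    {h : Fin T → M2 ℝ} (hh : ∀ s, (h s).det = 1) {k : Fin T × Λ → M2 ℝ}
    (hk : ∀ v, (k v).det = 1) :
    (1 - Sh ex ey h * Gm fun v => cx (k v) * Cm (σ v) (τ v)).det ≠ 0 := by
  intro h0
  obtain ⟨φ, hφ, h1⟩ := exists_mulVec_eq_zero_iff.2 h0
  rw [sub_mulVec, one_mulVec, sub_eq_zero, ← mulVec_mulVec] at h1
  set ψ := (Gm fun v => cx (k v) * Cm (σ v) (τ v)) *ᵥ φ with hψ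
  have e1 : ∀ v, qf (fun i => ψ (v, i)) = qf (Cm (σ v) (τ v) *ᵥ fun j => φ (v, j)) := by
    intro v; rw [hψ, Gm_mulVec, ← mulVec_mulVec, qf_mul, hk, one_mul]
  have e2 : ∑ v, qf (fun i => φ (v, i)) = ∑ v, qf fun i => ψ (v, i) := by
    rw [Fintype.sum_prod_type, Fintype.sum_prod_type, ← Equiv.sum_comp (Equiv.addRight (1 : Fin T))]
    refine sum_congr rfl fun s _ => ?_
    rw [← qf_O (ev_sq (ex s) (ey s)) (hh s) fun y i => ψ ((s, y), i)]
    refine sum_congr rfl fun y _ => ?_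
    rw [← Sh_mulVec, ← h1]; rfl
  obtain ⟨⟨v, i⟩, hv⟩ := Function.ne_iff.1 hφ
  refine absurd e2 (ne_of_lt (sum_lt_sum (fun w _ => ?_) ⟨v, mem_univ _, ?_⟩))
  · rw [e1]; exact (qf_Cm_le (hσ w) (hτ w) _).1
  · rw [e1]; exact (qf_Cm_le (hσ v) (hτ v) _).2 fun h' => hv (congrFun h' i)

lemma Sh_update (h : Fin T → M2 ℝ) (s : Fin T) : ∃ (U : Matrix _ (Fin 2) ℂ)
    (V : Matrix (Fin 2) _ ℂ), ∀ k, Sh ex ey (update h s k) =
      Sh ex ey h + U * (cx k - cx (h s)) * V := by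
  refine ⟨Matrix.of fun a i => if a.1.1 = s + 1 ∧ a.2 = i then Rep.ev (ex s) (ey s) a.1.2 else 0,
    Matrix.of fun l b => if b.1.1 = s ∧ b.2 = l then ((Rep.ev (ex s) (ey s) b.1.2 / 2 : ℝ) : ℂ)
      else 0, fun k => ?_⟩
  ext ⟨⟨a, y⟩, i⟩ ⟨⟨b, x⟩, j⟩
  simp only [Sh, of_apply, Matrix.add_apply, mul_apply, Matrix.sub_apply]
  by_cases hb : b = s
  · subst hb
    by_cases ha : a = b + 1
    · simp [ha]; ring
    · simp [ha]
  · simp [hb]

lemma Gm_update {S : Type} [Fintype S] [DecidableEq S] (k : S → M2 ℝ) (C : S → M2 ℂ) (v : S)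
    (k' : M2 ℝ) : (Gm fun w => cx (update k v k' w) * C w) =
      (Gm fun w => cx (k w) * C w) + J ℂ v * (cx k' - cx (k v)) * (C v * (J ℂ v)ᵀ) := by
  rw [← Matrix.mul_assoc, Matrix.mul_assoc (J ℂ v)]
  change _ = _ + E v v _
  ext ⟨a, i⟩ ⟨b, j⟩
  simp only [Gm, of_apply, Matrix.add_apply, E_apply, Matrix.sub_mul, Matrix.sub_apply]
  by_cases ha : a = v
  · subst ha
    by_cases hb : a = b
    · subst hb; simp
    · simp [hb, Ne.symm hb]
  · simp [ha]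

/-- the determinant as a function of all insertions. -/
noncomputable def Ph (σ τ : Fin T × Λ → ℂ) (H : Fin T ⊕ Fin T × Λ → M2 ℝ) : ℂ :=
  (1 - Sh ex ey (fun s => H (.inl s)) * Gm fun v => cx (H (.inr v)) * Cm (σ v) (τ v)).det

theorem good_Ph {σ τ : Fin T × Λ → ℂ} (hσ : ∀ v, 0 < (σ v).im) (hτ : ∀ v, (τ v).im < 0) :
    Good (Ph ex ey σ τ) := by
  have h0 : ∀ H : Fin T ⊕ Fin T × Λ → M2 ℝ, (∀ i, (H i).det = 1) → Ph ex ey σ τ H ≠ 0 :=
    fun H hH => base_ne ex ey hσ hτ (fun _ => hH _) fun _ => hH _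
  refine ⟨h0, fun i H hH => ?_⟩
  rcases i with s | v
  · obtain ⟨U, V, hUV⟩ := Sh_update ex ey (fun s => H (.inl s)) s
    obtain ⟨α, Γ, h⟩ := aff_det (h0 H hH) U
      (V * Gm fun v => cx (H (.inr v)) * Cm (σ v) (τ v)) (H (.inl s))
    refine ⟨α, Γ, fun k hk => ?_⟩
    have e : (fun r => update H (.inl s) k (.inl r)) = update (fun r => H (.inl r)) s k := by
      funext r; by_cases hr : r = s
      · subst hr; simp
      · simp [hr]
    rw [← h k hk, Ph, e, hUV]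
    simp only [ne_eq, reduceCtorEq, not_false_eq_true, update_of_ne, Matrix.add_mul,
      Matrix.mul_assoc, sub_sub]
  · obtain ⟨α, Γ, h⟩ := aff_det (h0 H hH) (Sh ex ey (fun s => H (.inl s)) * J ℂ v)
      (Cm (σ v) (τ v) * (J ℂ v)ᵀ) (H (.inr v))
    refine ⟨α, Γ, fun k hk => ?_⟩
    have e : ∀ w, update H (.inr v) k (.inr w) = update (fun r => H (.inr r)) v k w := by
      intro r; by_cases hr : r = v
      · subst hr; simp
      · simp [hr]
    rw [← h k hk, Ph]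
    simp only [e, Gm_update, ne_eq, reduceCtorEq, not_false_eq_true, update_of_ne,
      Matrix.mul_add, Matrix.mul_assoc, sub_sub]

lemma Sh_sn (ξ : Fin T → Bool) (g : Fin T × Λ → M2 ℂ) :
    Sh ex ey (fun s => sn (ξ s) • (1 : M2 ℝ)) * Gm g = ∑ v, E (Sg ex ey ξ v) v (g v) := by
  have h1 : Sh ex ey (fun s => sn (ξ s) • (1 : M2 ℝ)) =
      Matrix.of fun a b => if a.1 = Sg ex ey ξ b.1 ∧ a.2 = b.2 then 1 else 0 := by
    ext ⟨⟨a, y⟩, i⟩ ⟨⟨b, x⟩, j⟩
    have h := congrArg Complex.ofReal (ite_sg (ex b) (ey b) (ξ b) y x)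
    simp only [Sh, of_apply, Sg_apply, Prod.mk.injEq, cx, Matrix.sub_apply, map_apply,
      Matrix.smul_apply, one_apply, smul_eq_mul, sn]
    by_cases ha : a = b + 1
    · by_cases hij : i = j
      · simp only [ha, hij, true_and, and_true, if_true]
        simp only [apply_ite Complex.ofReal, Complex.ofReal_sub, Complex.ofReal_mul,
          Complex.ofReal_one, Complex.ofReal_zero] at h
        rw [h]; cases ξ b <;> simp; ring
      · simp [hij]
    · simp [ha]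
  rw [h1]
  ext ⟨a, i⟩ ⟨b, j⟩
  rw [Matrix.sum_apply, mul_apply, sum_eq_single (b, i), sum_eq_single b]
  · simp [E_apply, Gm]
  · intro v _ hv; simp [E_apply, Ne.symm hv]
  · simp
  · rintro ⟨v, l⟩ _ hv
    by_cases h : v = b
    · have : i ≠ l := fun h' => hv (by rw [h, h'])
      simp [this]
    · simp [Gm, h]
  · simp

end Crest.Agent.N337.LY0
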