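import Crest.Agent.N337.S27.LY0C

/-!
# Row 337, (N0) part D: Lee–Yang nonvanishing for the loop generating function
-/

set_option autoImplicit false
set_option linter.unusedSectionVars false

namespace Crest.Agent.N337.LY0

open Finset Equiv Matrix Function Crest.Agent.N337.Rep

section gen
variable {S : Type} [Fintype S] [DecidableEq S] {R : Type} [CommRing R]

/-- vertex matrix: sink `t`, then fugacity `b`, then source `s`; entry `(out, in)`. -/
def mv (s t b : R) : M2 R := !![1, t; s, b + s * t]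

/-- the loop generating function `∏ (Tr M - 2 det M)`. -/
noncomputable def Ps (π : Perm S) (s t b : S → R) : R :=
  ∏ c, (Tr π (fun v => mv (s v) (t v) (b v)) c - 2 * ∏ v ∈ ob π c, b v)

lemma Ps_map {R' : Type} [CommRing R'] (f : R →+* R') (π : Perm S) (s t b : S → R) :
    f (Ps π s t b) = Ps π (fun v => f (s v)) (fun v => f (t v)) fun v => f (b v) := by
  simp only [Ps, map_prod, map_sub, map_mul, Tr_map, map_ofNat]
  refine prod_congr rfl fun c _ => ?_
  congr 2
  funext v; ext i j; fin_cases i <;> fin_cases j <;> simp [mv]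

lemma Ps_gauge (π : Perm S) {l l' : R} (h : l * l' = 1) (s t b : S → R) :
    Ps π (fun v => l * s v) (fun v => l' * t v) b = Ps π s t b := by
  unfold Ps
  refine prod_congr rfl fun c _ => ?_
  rw [← Tr_conj (D := !![1, 0; 0, l]) (D' := !![1, 0; 0, l'])
    (by ext i j; fin_cases i <;> fin_cases j <;> simp [mul_comm l', h])
    (by ext i j; fin_cases i <;> fin_cases j <;> simp [h]) π fun v => mv (s v) (t v) (b v)]
  congr 2
  funext v; ext i j; fin_cases i <;> fin_cases j <;> simp [mv, mul_comm]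
  linear_combination (-b v) * h

lemma prod_two {ι : Type} [Fintype ι] [DecidableEq ι] (F : ι → Bool → R) :
    ∏ i, (F i true + F i false) = ∑ χ : ι → Bool, ∏ i, F i (χ i) := by
  have := prod_univ_sum (fun _ : ι => (univ : Finset Bool)) F
  rw [Fintype.piFinset_univ] at this
  rw [← this]; simp

lemma eps_sum (π : Perm S) (d : S → ℝ) (τ : Orb π → ℂ) :
    ∑ ε : S → Bool, (∏ v, (sw (d v) (ε v) : ℂ)) *
      ∏ c, (1 - (∏ v ∈ ob π c, (sn (ε v) : ℂ)) * τ c + 1) =
      ∏ c, (2 * ∏ v ∈ ob π c, (d v : ℂ) - τ c) := by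
  have h1 : ∀ ε : S → Bool, ∏ c, (1 - (∏ v ∈ ob π c, (sn (ε v) : ℂ)) * τ c + 1) =
      ∑ χ : Orb π → Bool, (∏ c, if χ c = true then -τ c else 2) *
        ∏ v, if χ (o π v) = true then (sn (ε v) : ℂ) else 1 := by
    intro ε
    have := prod_two fun c b => (if b = true then -τ c else 2) *
      ∏ v ∈ ob π c, if b = true then (sn (ε v) : ℂ) else 1
    simp only [if_true, Bool.false_eq_true, if_false, prod_const_one] at this
    rw [prod_congr rfl fun c _ => show _ = -τ c * ∏ v ∈ ob π c, (sn (ε v) : ℂ) + 2 * 1 by ring,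
      this]
    refine sum_congr rfl fun χ _ => ?_
    rw [prod_mul_distrib, ← prod_fiberwise univ (o π)]
    congr 1
    exact prod_congr rfl fun c _ => prod_congr rfl fun v hv => by rw [(mem_filter.1 hv).2]
  have h2 := prod_two fun c b => (if b = true then -τ c else 2) *
    ∏ v ∈ ob π c, if b = true then (1 : ℂ) else d v
  simp only [if_true, Bool.false_eq_true, if_false, prod_const_one] at h2
  rw [prod_congr rfl fun c _ => show 2 * ∏ v ∈ ob π c, (d v : ℂ) - τ c =
    -τ c * 1 + 2 * ∏ v ∈ ob π c, (d v : ℂ) by ring, h2]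
  simp only [h1, mul_sum]
  rw [sum_comm]
  refine sum_congr rfl fun χ _ => ?_
  have h3 := prod_two fun v b => (sw (d v) b : ℂ) * if χ (o π v) = true then (sn b : ℂ) else 1
  simp only [mul_left_comm _ (∏ c, if χ c = true then -τ c else 2), ← prod_mul_distrib,
    ← mul_sum, ← h3]
  rw [prod_mul_distrib, ← prod_fiberwise univ (o π)]
  congr 1
  refine prod_congr rfl fun c _ => prod_congr rfl fun v hv => ?_
  rw [(mem_filter.1 hv).2]
  cases χ c <;> simp [sw, sn] <;> ring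

lemma neg_card (π : Perm S) :
    ∏ _c : Orb π, (-1 : ℝ) = (-1) ^ Fintype.card S * ((Perm.sign π : ℤ) : ℝ) := by
  have h := det_mat π (fun _ => 0) fun _ => 1
  have e : mat π (fun _ => 0) (fun _ => 1) = -(π.permMatrix ℝ)ᵀ := by
    ext i j; simp [mat_apply, PEquiv.toMatrix_apply, eq_comm, Equiv.eq_symm_apply]
  rw [e, det_neg, det_transpose, det_permutation] at h
  rw [h]
  refine prod_congr rfl fun c _ => ?_
  rw [pr_zero (o_bp c) rfl, pr_one fun _ _ => rfl, zero_sub]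

lemma push {ι : Type} [Fintype ι] [DecidableEq ι] (w : ι → Bool → R) (φ : ι → Bool → Bool)
    (f : (ι → Bool) → R) : ∑ ξ : ι → Bool, (∏ i, w i (ξ i)) * f (fun i => φ i (ξ i)) =
      ∑ η : ι → Bool, (∏ i, ((if φ i true = η i then w i true else 0) +
        if φ i false = η i then w i false else 0)) * f η := by
  simp only [fun η : ι → Bool => prod_two fun i b => if φ i b = η i then w i b else 0, sum_mul]
  rw [sum_comm]
  refine sum_congr rfl fun ξ _ => ?_
  rw [sum_eq_single fun i => φ i (ξ i)]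
  · simp
  · intro η _ hη
    obtain ⟨i, hi⟩ := Function.ne_iff.1 hη
    rw [prod_eq_zero (mem_univ i) (if_neg (Ne.symm hi)), zero_mul]
  · simp

end gen

variable {Λ : Type} [Fintype Λ] [DecidableEq Λ] {T : ℕ} [NeZero T] (ex ey : Fin T → Λ)

lemma sign_Sg : ∃ κ : ℝ, κ ≠ 0 ∧ ∀ ξ : Fin T → Bool, ∏ _c : Orb (Sg ex ey ξ), (-1 : ℝ) =
    κ * ∏ s, if ex s = ey s then 1 else sn (ξ s) := by
  set ρ : Perm (Fin T × Λ) := Equiv.prodCongr (Equiv.addRight 1) (Equiv.refl Λ)
  refine ⟨(-1) ^ Fintype.card (Fin T × Λ) * ((Perm.sign ρ : ℤ) : ℝ), by simp, fun ξ => ?_⟩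
  have e : Sg ex ey ξ = ρ * Equiv.prodCongrRight fun s => sg (ex s) (ey s) (ξ s) := by
    ext ⟨s, x⟩ <;> rfl
  rw [neg_card, e, Perm.sign_mul, Perm.sign_prodCongrRight, mul_assoc]
  push_cast
  congr 2
  refine prod_congr rfl fun s _ => ?_
  by_cases h : ex s = ey s
  · cases ξ s <;> simp [sg, h]
  · cases ξ s <;> simp [sg, sn, h]

variable {p : Fin T → ℝ} {b : Fin T × Λ → ℝ}

theorem ne_core (hp : ∀ s, 0 ≤ p s ∧ p s ≤ 1) (hp2 : ∀ s, p s ≠ 1 / 2)
    (hp0 : ∀ s, ex s = ey s → p s = 0) (hb : ∀ v, 0 < b v ∧ b v ≤ 1) {σ τ : Fin T × Λ → ℂ}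
    (hσ : ∀ v, 0 < (σ v).im) (hτ : ∀ v, (τ v).im < 0) :
    ∑ ξ, (Pw p ξ : ℂ) * Ps (Sg ex ey ξ) σ τ (fun v => (b v : ℂ)) ≠ 0 := by
  have hr : ∀ v, 0 < √(b v) := fun v => Real.sqrt_pos.2 (hb v).1
  have hr' : ∀ v, ((√(b v) : ℝ) : ℂ) ≠ 0 := fun v => by exact_mod_cast (hr v).ne'
  have hsq : ∀ v, ((√(b v) : ℝ) : ℂ) * (√(b v) : ℝ) = b v := fun v => by
    exact_mod_cast Real.mul_self_sqrt (hb v).1.le
  set k : Fin T × Λ → M2 ℝ := fun v => !![(√(b v))⁻¹, 0; 0, √(b v)] with hk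
  have hk1 : ∀ v, (k v).det = 1 := fun v => by simp [hk, det_fin_two, (hr v).ne']
  have H := (good_Ph ex ey (σ := fun v => σ v / b v) (τ := τ)
    (fun v => by rw [Complex.div_ofReal_im]; exact div_pos (hσ v) (hb v).1) hτ).avg
    (d := Sum.elim (fun s => 1 - 2 * p s) fun v => √(b v)) (m := Sum.elim (fun _ => 1) k)
    (by rintro (s | v)
        · intro h; apply hp2 s; simp only [Sum.elim_inl] at h; linarith
        · exact (hr v).ne')
    (by rintro (s | v)
        · simp only [Sum.elim_inl]; rw [abs_le]; constructor <;> linarith [(hp s).1, (hp s).2]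
        · simp only [Sum.elim_inr]; rw [abs_of_pos (hr v)]; exact Real.sqrt_le_one.2 (hb v).2)
    (by rintro (s | v); exacts [det_one, hk1 v])
  obtain ⟨κ, hκ, hs⟩ := sign_Sg ex ey
  set g : Fin T × Λ → M2 ℂ := fun v => cx (k v) * Cm (σ v / b v) (τ v) with hg
  have hg1 : ∀ v, (g v).det = 1 := fun v => by
    have := hr' v
    simp [hg, hk, cx, Cm, det_fin_two, mul_apply]; field_simp; ring
  have hg2 : ∀ v, ((√(b v) : ℝ) : ℂ) • g v = mv (σ v) (τ v) (b v) := fun v => by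
    have h1 := hr' v
    have h2 := hsq v
    ext i j; fin_cases i <;> fin_cases j <;> simp [hg, hk, cx, Cm, mv, mul_apply, h1] <;>
      rw [← h2] <;> field_simp
  intro h0
  apply H
  rw [← (Equiv.sumArrowEquivProdArrow _ _ Bool).symm.sum_comp, Fintype.sum_prod_type]
  have key : ∀ ξ : Fin T → Bool, (∏ v, ((√(b v) : ℝ) : ℂ)) * ∑ ε : Fin T × Λ → Bool,
      (∏ v, (sw (√(b v)) (ε v) : ℂ)) * (1 - Sh ex ey (fun s => sn (ξ s) • (1 : M2 ℝ)) *
        Gm fun v => cx (sn (ε v) • k v) * Cm (σ v / b v) (τ v)).det =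
      (κ * ∏ s, if ex s = ey s then 1 else sn (ξ s) : ℝ) *
        Ps (Sg ex ey ξ) σ τ fun v => (b v : ℂ) := by
    intro ξ
    have e : ∀ (r : ℝ) v, cx (r • k v) * Cm (σ v / b v) (τ v) = (r : ℂ) • g v := by
      intro r v; rw [hg, ← Matrix.smul_mul]; congr 1; ext i j; simp [cx]
    have e' : ∀ (c : Bool) v, ((sn c : ℂ) • g v).det = 1 := by
      intro c v; rw [det_smul, hg1]; cases c <;> simp [sn]
    simp only [Sh_sn, det_loops, e, e', prod_const_one, Tr_smul, eps_sum]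
    rw [← hs, ← prod_fiberwise univ (o (Sg ex ey ξ)), ← prod_mul_distrib, Ps]
    push_cast
    rw [← prod_mul_distrib]
    refine prod_congr rfl fun c _ => ?_
    simp only [← hg2, Tr_smul]
    rw [prod_congr rfl fun v _ => (hsq v).symm, prod_mul_distrib]
    ring
  have hne : (∏ v, ((√(b v) : ℝ) : ℂ)) ≠ 0 := prod_ne_zero_iff.2 fun v _ => hr' v
  refine (mul_eq_zero.1 ?_).resolve_left hne
  rw [mul_sum, ← mul_zero (κ : ℂ), ← h0, mul_sum]
  refine sum_congr rfl fun ξ _ => ?_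
  have e : (Pw p ξ : ℂ) = (∏ s, (sw (1 - 2 * p s) (ξ s) : ℂ)) *
      (∏ s, if ex s = ey s then 1 else sn (ξ s) : ℝ) := by
    norm_cast
    rw [← prod_mul_distrib, Pw]
    refine prod_congr rfl fun s _ => ?_
    by_cases h : ex s = ey s
    · cases ξ s <;> simp [h, hp0 s h, wb, sw]
    · cases ξ s <;> simp [h, wb, sw, sn] <;> ring
  have := key ξ
  simp only [Fintype.prod_sum_type, Ph, Equiv.sumArrowEquivProdArrow_symm_apply_inl,
    Equiv.sumArrowEquivProdArrow_symm_apply_inr, Sum.elim_inl, Sum.elim_inr, mul_assoc,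
    ← mul_sum]
  rw [mul_left_comm, this, e]
  push_cast; ring

lemma sum_red (p : Fin T → ℝ) (f : Perm (Fin T × Λ) → ℂ) :
    ∑ ξ, (Pw p ξ : ℂ) * f (Sg ex ey ξ) =
      ∑ ξ, (Pw (fun s => if ex s = ey s then 0 else p s) ξ : ℂ) * f (Sg ex ey ξ) := by
  have h := push (fun s c => (wb (p s) c : ℂ)) (fun s c => if ex s = ey s then false else c)
    fun ξ => f (Sg ex ey ξ)
  have e : ∀ ξ : Fin T → Bool,
      Sg ex ey (fun s => if ex s = ey s then false else ξ s) = Sg ex ey ξ := by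
    intro ξ
    ext ⟨s, x⟩
    · rfl
    · by_cases hs : ex s = ey s <;> cases hξ : ξ s <;> simp [Sg_apply, sg, hs, hξ]
  simp only [e] at h
  simp only [Pw, Complex.ofReal_prod, h]
  refine sum_congr rfl fun ξ _ => ?_
  congr 1
  refine prod_congr rfl fun s _ => ?_
  by_cases hs : ex s = ey s <;> cases ξ s <;> simp [hs, wb]

/-- (N0): no zeros off the negative axis. -/
theorem ne_zero (hp : ∀ s, 0 ≤ p s ∧ p s ≤ 1) (hp2 : ∀ s, p s ≠ 1 / 2)
    (hb : ∀ v, 0 < b v ∧ b v ≤ 1) {s t : Fin T × Λ → ℝ} (hs : ∀ v, 0 < s v) (ht : ∀ v, 0 < t v)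
    {w : ℂ} (hw : ¬ (w.im = 0 ∧ w.re ≤ 0)) :
    ∑ ξ, (Pw p ξ : ℂ) * Ps (Sg ex ey ξ) (fun v => w * s v) (fun v => (t v : ℂ))
      (fun v => (b v : ℂ)) ≠ 0 := by
  have h1 : 0 < ‖w‖ + w.re := by
    by_contra h
    have h2 := Complex.abs_re_le_norm w
    have h3 : ‖w‖ = -w.re := by linarith [neg_abs_le w.re, not_lt.1 h]
    have h4 := Complex.sq_norm w
    rw [h3, Complex.normSq_apply] at h4
    exact hw ⟨by nlinarith, by linarith [norm_nonneg w]⟩
  have hw0 : 0 < ‖w‖ := norm_pos_iff.2 fun h => hw (by simp [h])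
  set l : ℂ := Complex.I * (‖w‖ + (starRingEnd ℂ) w) with hl
  have hl1 : 0 < l.im := by simpa [hl] using h1
  have hl0 : l ≠ 0 := fun h => by simp [h] at hl1
  have hl2 : 0 < (l * w).im := by
    have : l * w = Complex.I * (‖w‖ * (w + ‖w‖)) := by
      rw [hl, mul_assoc, add_mul, Complex.conj_mul', mul_add]; ring
    rw [this]
    simpa [add_comm] using mul_pos hw0 h1
  simp only [← Ps_gauge _ (mul_inv_cancel₀ hl0) (fun v => w * s v)]
  rw [sum_red ex ey p fun π => Ps π _ _ _]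
  refine ne_core ex ey (fun r => ?_) (fun r => ?_) (fun r hr => if_pos hr) hb (fun v => ?_)
    fun v => ?_
  · split_ifs; exacts [⟨le_rfl, zero_le_one⟩, hp r]
  · split_ifs; exacts [by norm_num, hp2 r]
  · rw [← mul_assoc, Complex.mul_im, Complex.ofReal_im, Complex.ofReal_re, mul_zero, zero_add]
    exact mul_pos hl2 (hs v)
  · rw [Complex.mul_im, Complex.ofReal_im, Complex.ofReal_re, mul_zero, zero_add, Complex.inv_im]
    exact mul_neg_of_neg_of_pos (div_neg_of_neg_of_pos (neg_neg_of_pos hl1)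
      (Complex.normSq_pos.2 hl0)) (ht v)

end Crest.Agent.N337.LY0
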