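import Crest.Agent.N337.S27.LY0D

/-!
# Row 337, (N0) part E: value, linear term and path lower bounds of the loop generating function
-/

set_option autoImplicit false
set_option linter.unusedSectionVars false

namespace Crest.Agent.N337.LY0

open Finset Equiv Matrix Function Crest.Agent.N337.Rep

variable {S : Type} [Fintype S] [DecidableEq S]

lemma Pk_up {R : Type} [CommRing R] (t b : ℕ → R) (k : ℕ) :
    Pk (fun i => mv 0 (t i) (b i)) k =
      !![1, ∑ j ∈ range k, t j * ∏ i ∈ range j, b i; 0, ∏ i ∈ range k, b i] := by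
  induction k with
  | zero => ext i j; fin_cases i <;> fin_cases j <;> simp [Pk_zero]
  | succ k ih =>
    rw [Pk_succ, ih, sum_range_succ, prod_range_succ]
    ext i j; fin_cases i <;> fin_cases j <;> simp [mv, mul_comm]

lemma Tr_up (π : Perm S) (t b : S → ℝ) (c : Orb π) :
    Tr π (fun v => mv 0 (t v) (b v)) c = 1 + pr π b c := by
  have := prod_ob π (bp c) b
  rw [o_bp] at this
  rw [Tr, Pc, Pk_up, pr, this]; simp [trace_fin_two]

lemma Ps_zero (π : Perm S) (t b : S → ℝ) :
    Ps π (fun _ => 0) t b = (mat π (fun _ => 1) b).det := by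
  rw [det_mat, Ps]
  refine prod_congr rfl fun c _ => ?_
  rw [Tr_up, pr_one fun _ _ => rfl, pr]; ring

lemma Pk_deriv (U G : ℕ → M2 ℝ) (k : ℕ) (a c : Fin 2) :
    HasDerivAt (fun w : ℝ => Pk (fun i => U i + w • G i) k a c)
      ((∑ i ∈ range k, Pk (update U i (G i)) k) a c) 0 := by
  induction k generalizing a with
  | zero => simpa [Pk_zero] using hasDerivAt_const (0 : ℝ) ((1 : M2 ℝ) a c)
  | succ k ih =>
    have e : ∑ i ∈ range (k + 1), Pk (update U i (G i)) (k + 1) =
        G k * Pk U k + U k * ∑ i ∈ range k, Pk (update U i (G i)) k := by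
      rw [sum_range_succ, Pk_succ, update_self, add_comm, Matrix.mul_sum,
        Pk_congr (g := update U k (G k)) (g' := U) (k := k)
          fun i hi => update_of_ne hi.ne _ _]
      congr 1
      exact sum_congr rfl fun i hi => by
        rw [Pk_succ, update_of_ne (mem_range.1 hi).ne']
    rw [e]
    simp only [Pk_succ, mul_apply, Matrix.add_apply, Matrix.smul_apply, smul_eq_mul,
      ← sum_add_distrib]
    refine HasDerivAt.fun_sum fun l _ => ?_
    have h1 : HasDerivAt (fun w : ℝ => U k a l + w * G k a l) (G k a l) 0 := by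
      simpa using ((hasDerivAt_id (0 : ℝ)).mul_const (G k a l)).const_add (U k a l)
    simpa using h1.fun_mul (ih l)

lemma Tr_deriv (π : Perm S) (U G : S → M2 ℝ) (c : Orb π) :
    HasDerivAt (fun w : ℝ => Tr π (fun v => U v + w • G v) c)
      (∑ u ∈ ob π c, Tr π (update U u (G u)) c) 0 := by
  have h := sum_ob π (bp c) fun u => Tr π (update U u (G u)) c
  rw [o_bp] at h
  have e : ∑ u ∈ ob π c, Tr π (update U u (G u)) c = (∑ i ∈ range (per π (bp c)),
      Pk (update (fun i => U (π^[i] (bp c))) i (G (π^[i] (bp c)))) (per π (bp c))).trace := by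
    rw [h, trace_sum]
    refine sum_congr rfl fun i hi => ?_
    rw [Tr, Pc, Pk_congr]
    intro j hj
    by_cases hij : j = i
    · subst hij; simp
    · rw [update_of_ne hij, update_of_ne fun h => hij (it_inj hj (mem_range.1 hi) h)]
  rw [e]
  simp only [Tr, Pc, trace_fin_two]
  exact (Pk_deriv _ _ _ 0 0).fun_add (Pk_deriv _ _ _ 1 1)

lemma Tr_update (π : Perm S) (U : S → M2 ℝ) (u : S) : ∃ P : M2 ℝ, Pc π U (π u) = U u * P ∧
    ∀ G, Tr π (update U u G) (o π u) = (G * P).trace := by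
  obtain ⟨k, hk⟩ : ∃ k, per π (π u) = k + 1 :=
    ⟨_, (Nat.succ_pred_eq_of_pos (per_pos π (π u))).symm⟩
  have h0 : π^[k] (π u) = u := by
    have := it_per π (π u)
    rw [hk, Function.iterate_succ_apply'] at this
    exact π.injective this
  refine ⟨Pk (fun i => U (π^[i] (π u))) k, by rw [Pc, hk, Pk_succ, h0], fun G => ?_⟩
  rw [← o_apply π u, Tr_eq, Pc, hk, Pk_succ, h0, update_self, Pk_congr]
  intro i hi
  refine update_of_ne (fun h => ?_) _ _
  have := it_inj (x := π u) (i := i) (j := k) (by omega) (by omega) (h.trans h0.symm)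
  omega

lemma mat_single (π : Perm S) (b : S → ℝ) (v : S) : mat π (fun _ => 1) b *ᵥ Pi.single v 1 =
    Pi.single v 1 - b v • Pi.single (π v) 1 := by
  funext i; simp [mat_apply, Pi.single_apply]

lemma arc_eq (π : Perm S) (t b : S → ℝ) (hN : (mat π (fun _ => 1) b).det ≠ 0) (x : S) :
    Pc π (fun v => mv 0 (t v) (b v)) x 0 1 =
      (1 - pr π b (o π x)) * (t ⬝ᵥ (mat π (fun _ => 1) b)⁻¹ *ᵥ Pi.single x 1) := by
  set z : ℕ → S → ℝ := fun j => (∏ i ∈ range j, b (π^[i] x)) • Pi.single (π^[j] x) 1 with hz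
  have h1 : mat π (fun _ => 1) b *ᵥ ∑ j ∈ range (per π x), z j =
      (1 - pr π b (o π x)) • Pi.single x 1 := by
    have : ∀ j, mat π (fun _ => 1) b *ᵥ z j = z j - z (j + 1) := fun j => by
      simp only [hz, mulVec_smul, mat_single, smul_sub, smul_smul, prod_range_succ,
        Function.iterate_succ_apply']
    rw [mulVec_sum]
    simp only [this, sum_range_sub']
    simp only [hz, it_per, pr, prod_ob, sub_smul, range_zero, prod_empty, Function.iterate_zero,
      id]
  have h2 := congrArg (fun y => t ⬝ᵥ (mat π (fun _ => 1) b)⁻¹ *ᵥ y) h1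
  simp only [mulVec_mulVec, nonsing_inv_mul _ hN.isUnit, one_mulVec, mulVec_smul,
    dotProduct_smul, smul_eq_mul, dotProduct_sum, hz, dotProduct_single, mul_one] at h2
  rw [← h2, Pc, Pk_up]
  simp [mul_comm]

/-- the permutation matrix. -/
def PM (π : Perm S) : Matrix S S ℝ := Matrix.of fun i j => if i = π j then 1 else 0

lemma mat_eq (π : Perm S) (b : S → ℝ) : mat π (fun _ => 1) b = 1 - PM π * diagonal b := by
  ext i j; simp [mat_apply, PM, one_apply]

lemma PM_mulVec (π : Perm S) (s : S → ℝ) : PM π *ᵥ s = ∑ u, s u • Pi.single (π u) 1 := by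
  funext i; simp [PM, mulVec, dotProduct, Finset.sum_apply, Pi.single_apply]

lemma Ps_deriv (π : Perm S) (s t b : S → ℝ) (hN : (mat π (fun _ => 1) b).det ≠ 0) :
    HasDerivAt (fun w : ℝ => Ps π (fun v => w * s v) t b)
      ((mat π (fun _ => 1) b).det - (mat π (fun _ => 1) b - vecMulVec (PM π *ᵥ s) t).det) 0 := by
  set U : S → M2 ℝ := fun v => mv 0 (t v) (b v) with hU
  set G : S → M2 ℝ := fun v => !![0, 0; s v, s v * t v] with hG
  have e : ∀ (w : ℝ) v, mv (w * s v) (t v) (b v) = U v + w • G v := by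
    intro w v; ext i j; fin_cases i <;> fin_cases j <;> simp [hU, hG, mv, mul_assoc]
  simp only [Ps, e]
  refine (HasDerivAt.fun_finsetProd (u := univ) fun c _ =>
    (Tr_deriv π U G c).sub_const (2 * ∏ v ∈ ob π c, b v)).congr_deriv (Eq.symm ?_)
  rw [det_rank_one hN, PM_mulVec, mulVec_sum, dotProduct_sum, mul_sub, mul_one, sub_sub_cancel,
    mul_sum, ← sum_fiberwise univ (o π)]
  refine sum_congr rfl fun c _ => ?_
  rw [smul_eq_mul, mul_sum]
  refine sum_congr rfl fun u hu => ?_
  obtain rfl := (mem_filter.1 hu).2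
  obtain ⟨P, h1, h2⟩ := Tr_update π U u
  have h3 := arc_eq π t b hN (π u)
  rw [h1, o_apply] at h3
  have h4 : (G u * P).trace = s u * (U u * P) 0 1 := by
    simp [hG, hU, mv, trace_fin_two, mul_apply, vecMul, dotProduct]; ring
  rw [h2, h4, h3, det_mat, ← mul_prod_erase _ _ (mem_univ (o π u)), mulVec_smul,
    dotProduct_smul, smul_eq_mul, pr_one fun _ _ => rfl]
  have : ∀ c, Tr π (fun v => U v + (0 : ℝ) • G v) c - 2 * ∏ v ∈ ob π c, b v =
      pr π (fun _ => 1) c - pr π b c := fun c => by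
    simp only [zero_smul, add_zero, hU, Tr_up]
    rw [pr_one (a := fun _ => 1) fun _ _ => rfl, pr]; ring
  simp only [this]
  ring

section lower
variable {g : ℕ → M2 ℝ}

lemma Pk_nonneg (hg : ∀ i a c, 0 ≤ g i a c) (k : ℕ) (a c : Fin 2) : 0 ≤ Pk g k a c := by
  induction k generalizing a with
  | zero => rw [Pk_zero, one_apply]; split_ifs <;> norm_num
  | succ k ih => rw [Pk_succ, mul_apply]; exact sum_nonneg fun l _ => mul_nonneg (hg _ _ _) (ih l)

lemma Pk_path (hg : ∀ i a c, 0 ≤ g i a c) (c : ℕ → Fin 2) (k : ℕ) :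
    ∏ i ∈ range k, g i (c (i + 1)) (c i) ≤ Pk g k (c k) (c 0) := by
  induction k with
  | zero => simp [Pk_zero]
  | succ k ih =>
    rw [Pk_succ, mul_apply, prod_range_succ, mul_comm]
    exact (mul_le_mul_of_nonneg_left ih (hg _ _ _)).trans (single_le_sum
      (fun l _ => mul_nonneg (hg k (c (k + 1)) l) (Pk_nonneg hg k l (c 0))) (mem_univ (c k)))

lemma Pk_two (hg : ∀ i a c, 0 ≤ g i a c) (c c' : ℕ → Fin 2) (h0 : c' 0 = c 0) (k : ℕ)
    (hk : c' k = c k) (hne : ∃ i ≤ k, c' i ≠ c i) : ∏ i ∈ range k, g i (c (i + 1)) (c i) +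
      ∏ i ∈ range k, g i (c' (i + 1)) (c' i) ≤ Pk g k (c k) (c 0) := by
  induction k with
  | zero => obtain ⟨i, hi, h⟩ := hne; obtain rfl : i = 0 := by omega
            exact absurd h0 h
  | succ k ih =>
    have hn := fun l => mul_nonneg (hg k (c (k + 1)) l) (Pk_nonneg hg k l (c 0))
    rw [Pk_succ, mul_apply, prod_range_succ, prod_range_succ, hk]
    by_cases h : c' k = c k
    · obtain ⟨i, hi, h'⟩ := hne
      have := ih h ⟨i, by by_contra hh; exact h' (by rwa [show i = k + 1 by omega]), h'⟩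
      rw [h, ← add_mul, mul_comm]
      exact (mul_le_mul_of_nonneg_left this (hg _ _ _)).trans
        (single_le_sum (fun l _ => hn l) (mem_univ (c k)))
    · have h1 := mul_le_mul_of_nonneg_left (Pk_path hg c k) (hg k (c (k + 1)) (c k))
      have h2 := mul_le_mul_of_nonneg_left (Pk_path hg c' k) (hg k (c (k + 1)) (c' k))
      have h3 := sum_le_sum_of_subset_of_nonneg (subset_univ {c' k, c k}) fun l _ _ => hn l
      rw [sum_pair h] at h3
      rw [h0] at h2
      linarith [mul_comm (g k (c (k + 1)) (c k)) (∏ i ∈ range k, g i (c (i + 1)) (c i)),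
        mul_comm (g k (c (k + 1)) (c' k)) (∏ i ∈ range k, g i (c' (i + 1)) (c' i))]

end lower

lemma mv_nonneg {s t b : ℝ} (hs : 0 ≤ s) (ht : 0 ≤ t) (hb : 0 ≤ b) (a c : Fin 2) :
    0 ≤ mv s t b a c := by
  fin_cases a <;> fin_cases c <;> simp [mv, hs, ht]; positivity

open Classical in
/-- the extra weight of a loop: `1 - ∏ b` if the colouring is constant on it, else `1`. -/
noncomputable def om (π : Perm S) (σ : S → Fin 2) (b : S → ℝ) (c : Orb π) : ℝ :=
  if ∀ v, o π v = c → σ (π v) = σ v then 1 - pr π b c else 1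

variable {s t b : S → ℝ}

lemma om_ge (π : Perm S) (σ : S → Fin 2) (hb : ∀ v, 0 ≤ b v ∧ b v ≤ 1) (c : Orb π) :
    0 ≤ 1 - pr π b c ∧ 1 - pr π b c ≤ om π σ b c := by
  have h0 := pr_nonneg (π := π) (fun v => (hb v).1) c
  have h1 := pr_le_one (π := π) (fun v => (hb v).1) (fun v => (hb v).2) c
  unfold om; split_ifs <;> constructor <;> linarith

lemma loop_lb (π : Perm S) (hs : ∀ v, 0 ≤ s v) (ht : ∀ v, 0 ≤ t v) (hb : ∀ v, 0 ≤ b v ∧ b v ≤ 1)
    (σ : S → Fin 2) (c : Orb π) :
    (∏ v ∈ ob π c, mv (s v) (t v) (b v) (σ (π v)) (σ v)) * om π σ b c ≤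
      Tr π (fun v => mv (s v) (t v) (b v)) c - 2 * ∏ v ∈ ob π c, b v := by
  obtain ⟨x, rfl⟩ := o_surj π c
  have hB0 := pr_nonneg (π := π) (fun v => (hb v).1) (o π x)
  have hB1 := pr_le_one (π := π) (fun v => (hb v).1) (fun v => (hb v).2) (o π x)
  set g : ℕ → M2 ℝ := fun i => mv (s (π^[i] x)) (t (π^[i] x)) (b (π^[i] x)) with hgd
  have hg : ∀ i a c, 0 ≤ g i a c := fun i => mv_nonneg (hs _) (ht _) (hb _).1
  set k := per π x with hk
  set col : ℕ → Fin 2 := fun i => σ (π^[i] x) with hcol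
  have hck : col k = col 0 := by simp only [hcol, hk, it_per, Function.iterate_zero, id]
  have e0 : ∏ i ∈ range k, g i 0 0 = 1 := prod_eq_one fun i _ => by simp [hgd, mv]
  have e1 : pr π b (o π x) ≤ ∏ i ∈ range k, g i 1 1 := by
    rw [pr, prod_ob]
    exact prod_le_prod (fun i _ => (hb _).1) fun i _ => by
      simpa [hgd, mv] using mul_nonneg (hs _) (ht _)
  have p0 := Pk_path hg (fun _ => 0) k
  have p1 := Pk_path hg (fun _ => 1) k
  have e2 : ∏ v ∈ ob π (o π x), mv (s v) (t v) (b v) (σ (π v)) (σ v) =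
      ∏ i ∈ range k, g i (col (i + 1)) (col i) := by
    rw [prod_ob]; simp only [hgd, hcol, hk, Function.iterate_succ_apply']
  rw [Tr_eq, e2, Pc, trace_fin_two, ← pr, om]
  change _ ≤ Pk g k 0 0 + Pk g k 1 1 - _
  split_ifs with h
  · have hc : ∀ i, col i = col 0 := by
      intro i
      induction i with
      | zero => rfl
      | succ i ih =>
        rw [← ih]; simp only [hcol, Function.iterate_succ_apply']; exact h _ (o_it π i x)
    simp only [hc]
    generalize col 0 = a
    fin_cases a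
    · simp only [Fin.zero_eta, e0]; linarith
    · simp only [Fin.mk_one]; nlinarith [sq_nonneg (1 - pr π b (o π x))]
  · have hne : ∃ i ≤ k, col 0 ≠ col i := by
      by_contra hh
      push Not at hh
      refine h fun v hv => ?_
      have hv' : v ∈ ob π (o π x) := mem_filter.2 ⟨mem_univ _, hv⟩
      rw [ob_eq] at hv'
      obtain ⟨i, hi, rfl⟩ := mem_image.1 hv'
      have hi' := mem_range.1 hi
      have := (hh (i + 1) hi').symm.trans (hh i hi'.le)
      simpa only [hcol, Function.iterate_succ_apply'] using this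
    have := Pk_two hg col (fun _ => col 0) rfl k hck.symm hne
    rw [hck] at this
    revert this
    generalize col 0 = a
    intro this
    fin_cases a
    · simp only [Fin.zero_eta] at this; linarith
    · simp only [Fin.mk_one] at this; linarith

/-- every colouring gives a lower bound. -/
theorem Ps_lb (π : Perm S) (hs : ∀ v, 0 ≤ s v) (ht : ∀ v, 0 ≤ t v) (hb : ∀ v, 0 ≤ b v ∧ b v ≤ 1)
    (σ : S → Fin 2) :
    (∏ v, mv (s v) (t v) (b v) (σ (π v)) (σ v)) * ∏ c, om π σ b c ≤ Ps π s t b := by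
  rw [← prod_fiberwise univ (o π), ← prod_mul_distrib, Ps]
  exact prod_le_prod (fun c _ => mul_nonneg
    (prod_nonneg fun v _ => mv_nonneg (hs v) (ht v) (hb v).1 _ _)
    ((om_ge π σ hb c).1.trans (om_ge π σ hb c).2)) fun c _ => loop_lb π hs ht hb σ c

lemma Ps_nonneg (π : Perm S) (hs : ∀ v, 0 ≤ s v) (ht : ∀ v, 0 ≤ t v)
    (hb : ∀ v, 0 ≤ b v ∧ b v ≤ 1) : 0 ≤ Ps π s t b :=
  le_trans (mul_nonneg (prod_nonneg fun v _ => mv_nonneg (hs v) (ht v) (hb v).1 _ _)
    (prod_nonneg fun c _ => (om_ge π (fun _ => 0) hb c).1.trans (om_ge π _ hb c).2))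
    (Ps_lb π hs ht hb fun _ => 0)

end Crest.Agent.N337.LY0
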